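import Vale.Agent.P262N.Lyap

/-! # The count row: facts on `Wt`, `uu`, `cl`, `Bg`, `Gz`, `Tz`. -/

open Finset

namespace Vale.Agent.P262H

variable {d : ℕ} {P : Par d} (Q : Ext P)
variable {ι : Type*} [DecidableEq ι] {α : ι → Fin d → ℝ}

include Q in
lemma Ext.lam_pos (i : Fin d) (ℓ : ℕ) : 0 < P.lam i ℓ := by
  unfold Par.lam
  have := Q.hΛ i
  positivity

lemma Par.Wt_nonneg (P : Par d) (i : Fin d) (ℓ : ℕ) : 0 ≤ P.Wt i ℓ := Real.sqrt_nonneg _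

include Q in
lemma Ext.Wt_succ (i : Fin d) (ℓ : ℕ) : P.Wt i (ℓ + 1) = √2 * P.Wt i ℓ := by
  have hl := Q.lam_pos i ℓ
  have he := P.e_pos
  unfold Par.Wt
  rw [P.lam_succ, ← Real.sqrt_mul (by norm_num : (0 : ℝ) ≤ 2)]
  congr 1
  field_simp

include Q in
/-- `Wt * ss ^ 2 = 1`. -/
lemma Ext.Wt_ss (i : Fin d) (ℓ : ℕ) : P.Wt i ℓ * P.ss i ℓ ^ 2 = 1 := by
  have hl := Q.lam_pos i ℓ
  have he := P.e_pos
  unfold Par.Wt Par.ss
  rw [Real.sq_sqrt (Real.sqrt_nonneg _), ← Real.sqrt_mul (by positivity)]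
  have : P.e / P.lam i ℓ * (P.lam i ℓ / P.e) = 1 := by field_simp
  rw [this, Real.sqrt_one]

include Q in
/-- Entrants have weight below `1 / d`. -/
lemma Ext.Wt_entrant {i : Fin d} {ℓ : ℕ} (h1 : P.lam i (ℓ + 1) ≤ 2 * P.σ)
    (h2 : 2 * P.σ < P.lam i ℓ) : P.Wt i (ℓ + 1) * (d : ℝ) ≤ 1 := by
  have hl := Q.lam_pos i (ℓ + 1)
  have hσ := P.σ_pos
  have hd := P.d_pos
  have h3 : P.σ ≤ P.lam i (ℓ + 1) := by
    rw [P.lam_succ]
    linarith
  have h4 : P.e / P.lam i (ℓ + 1) ≤ (1 / (d : ℝ)) ^ 2 := by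
    rw [div_le_iff₀ hl]
    unfold Par.e
    rw [div_pow, one_pow, one_div, inv_mul_eq_div, div_le_div_iff_of_pos_right (by positivity)]
    exact h3
  have h5 : P.Wt i (ℓ + 1) ≤ 1 / (d : ℝ) := by
    unfold Par.Wt
    rw [show (1 / (d : ℝ)) = √((1 / (d : ℝ)) ^ 2) by rw [Real.sqrt_sq (by positivity)]]
    exact Real.sqrt_le_sqrt h4
  calc P.Wt i (ℓ + 1) * (d : ℝ) ≤ 1 / (d : ℝ) * d := mul_le_mul_of_nonneg_right h5 hd.le
    _ = 1 := by field_simp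

lemma Par.uu_nonneg (P : Par d) (α : ι → Fin d → ℝ) (ℓ : ℕ) (v : ι) : 0 ≤ P.uu α ℓ v := by
  unfold Par.uu
  refine Finset.sum_nonneg fun i _ => ?_
  split_ifs
  · exact mul_nonneg (P.Wt_nonneg i ℓ) (sq_nonneg _)
  · exact le_rfl

include Q in
lemma Ext.uu_mono (α : ι → Fin d → ℝ) (ℓ : ℕ) (v : ι) : P.uu α ℓ v ≤ P.uu α (ℓ + 1) v := by
  unfold Par.uu
  refine Finset.sum_le_sum fun i _ => ?_
  have hl := Q.lam_pos i ℓ
  have h2 : P.lam i (ℓ + 1) ≤ P.lam i ℓ := P.lam_succ_le i ℓ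
  by_cases h : P.lam i ℓ ≤ 2 * P.σ
  · rw [if_pos h, if_pos (h2.trans h), Q.Wt_succ]
    have h3 := P.Wt_nonneg i ℓ
    have h4 : (1 : ℝ) ≤ √2 := by
      rw [Real.one_le_sqrt]
      norm_num
    apply mul_le_mul_of_nonneg_right _ (sq_nonneg _)
    nlinarith
  · rw [if_neg h]
    split_ifs
    · exact mul_nonneg (P.Wt_nonneg _ _) (sq_nonneg _)
    · exact le_rfl

include Q in
/-- One level of the weighted mass. -/
lemma Ext.uu_step (α : ι → Fin d → ℝ) (ℓ : ℕ) (v : ι) :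
    P.uu α (ℓ + 1) v ≤ √2 * P.uu α ℓ v
      + ∑ i, if P.lam i (ℓ + 1) ≤ 2 * P.σ ∧ 2 * P.σ < P.lam i ℓ then P.Wt i (ℓ + 1) * α v i ^ 2 else 0 := by
  unfold Par.uu
  rw [Finset.mul_sum, ← Finset.sum_add_distrib]
  refine Finset.sum_le_sum fun i _ => ?_
  have h2 : P.lam i (ℓ + 1) ≤ P.lam i ℓ := P.lam_succ_le i ℓ
  by_cases h : P.lam i ℓ ≤ 2 * P.σ
  · rw [if_pos h, if_pos (h2.trans h), Q.Wt_succ, if_neg (by simp; intro _; exact h)]
    have e : √2 * P.Wt i ℓ * α v i ^ 2 = √2 * (P.Wt i ℓ * α v i ^ 2) := by ring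
    rw [e, add_zero]
  · rw [if_neg h, mul_zero, zero_add]
    have h3 := not_le.mp h
    by_cases h4 : P.lam i (ℓ + 1) ≤ 2 * P.σ
    · rw [if_pos h4, if_pos ⟨h4, h3⟩]
    · rw [if_neg h4, if_neg (fun h5 => h4 h5.1)]

lemma Par.cl_nonneg (P : Par d) (α : ι → Fin d → ℝ) (ℓ : ℕ) (v : ι) : 0 ≤ P.cl α ℓ v := by
  unfold Par.cl
  exact le_min (P.uu_nonneg α ℓ v) zero_le_one

lemma Par.cl_le_one (P : Par d) (α : ι → Fin d → ℝ) (ℓ : ℕ) (v : ι) : P.cl α ℓ v ≤ 1 :=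
  min_le_right _ _

lemma Par.cl_eq_one (P : Par d) {α : ι → Fin d → ℝ} {ℓ : ℕ} {v : ι} (h : 1 < P.uu α ℓ v) :
    P.cl α ℓ v = 1 := by
  unfold Par.cl
  exact min_eq_right h.le

/-- The sum of a function of absolute value at most one over the elements with `1 < uu`. -/
lemma Par.sum_big_le (P : Par d) (α : ι → Fin d → ℝ) (ℓ : ℕ) (C : Finset ι) (s : Finset ι) (hs : s ⊆ C)
    (hb : ∀ v ∈ s, 1 < P.uu α ℓ v) (f : ι → ℝ) (c : ℝ) (hc : 0 ≤ c) (hf : ∀ v ∈ s, |f v| ≤ c) :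
    ∑ v ∈ s, |f v| ≤ (∑ v ∈ C, P.cl α ℓ v) * c := by
  calc ∑ v ∈ s, |f v| ≤ ∑ v ∈ s, P.cl α ℓ v * c := by
        refine Finset.sum_le_sum fun v hv => ?_
        rw [P.cl_eq_one (hb v hv), one_mul]
        exact hf v hv
    _ = (∑ v ∈ s, P.cl α ℓ v) * c := by rw [Finset.sum_mul]
    _ ≤ (∑ v ∈ C, P.cl α ℓ v) * c := by
        apply mul_le_mul_of_nonneg_right _ hc
        exact Finset.sum_le_sum_of_subset_of_nonneg hs fun v _ _ => P.cl_nonneg α ℓ v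

include Q in
lemma Ext.Bg_mono {i : Fin d} {ℓ : ℕ} {v : ι} (h : P.Bg α i ℓ v) : P.Bg α i (ℓ + 1) v := by
  exact ⟨(P.lam_succ_le i ℓ).trans_lt h.1, lt_of_lt_of_le h.2 (Q.uu_mono α ℓ v)⟩

include Q in
/-- The entries of a coordinate of energy below `2 σ` in an element which is not big. -/
lemma Ext.entry_le {i : Fin d} {ℓ : ℕ} {v : ι} (h1 : P.lam i ℓ ≤ 2 * P.σ) (h2 : P.uu α ℓ v ≤ 1) :
    |α v i| ≤ P.ss i ℓ := by
  have hW := Q.Wt_ss i ℓ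
  have hl := Q.lam_pos i ℓ
  have he := P.e_pos
  have hWpos : 0 < P.Wt i ℓ := Real.sqrt_pos.mpr (div_pos he hl)
  have h3 : P.Wt i ℓ * α v i ^ 2 ≤ P.uu α ℓ v := by
    unfold Par.uu
    have := Finset.single_le_sum (f := fun k => if P.lam k ℓ ≤ 2 * P.σ then P.Wt k ℓ * α v k ^ 2 else 0)
      (fun k _ => by
        split_ifs
        · exact mul_nonneg (P.Wt_nonneg k ℓ) (sq_nonneg _)
        · exact le_rfl) (Finset.mem_univ i)
    simpa only [if_pos h1] using this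
  have h4 : P.Wt i ℓ * α v i ^ 2 ≤ P.Wt i ℓ * P.ss i ℓ ^ 2 := by
    rw [hW]
    linarith
  have h5 : α v i ^ 2 ≤ P.ss i ℓ ^ 2 := le_of_mul_le_mul_left h4 hWpos
  have h6 : 0 ≤ P.ss i ℓ := Real.sqrt_nonneg _
  exact abs_le_of_sq_le_sq' h5 h6 |> abs_le.mpr

omit [DecidableEq ι] in
lemma Tz_nonneg (P : Par d) (α : ι → Fin d → ℝ) (i : Fin d) (ℓ : ℕ) (C : Finset ι) : 0 ≤ P.Tz α i ℓ C := by
  exact Finset.sum_nonneg fun _ _ => abs_nonneg _

omit [DecidableEq ι] in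
lemma Gz_abs_le (P : Par d) (α : ι → Fin d → ℝ) (i : Fin d) (ℓ : ℕ) (C : Finset ι) :
    |P.Gz α i ℓ C| ≤ P.Tz α i ℓ C := by
  exact Finset.abs_sum_le_sum_abs _ _

lemma Gz_add (P : Par d) (α : ι → Fin d → ℝ) (i : Fin d) (ℓ : ℕ) {L B : Finset ι} (hLB : L ⊆ B) :
    P.Gz α i ℓ B = P.Gz α i ℓ L + P.Gz α i ℓ (B \ L) := by
  unfold Par.Gz
  rw [Finset.sum_filter, Finset.sum_filter, Finset.sum_filter, add_comm]
  exact (Finset.sum_sdiff hLB).symm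

lemma Tz_add (P : Par d) (α : ι → Fin d → ℝ) (i : Fin d) (ℓ : ℕ) {L B : Finset ι} (hLB : L ⊆ B) :
    P.Tz α i ℓ B = P.Tz α i ℓ L + P.Tz α i ℓ (B \ L) := by
  unfold Par.Tz
  rw [Finset.sum_filter, Finset.sum_filter, Finset.sum_filter, add_comm]
  exact (Finset.sum_sdiff hLB).symm

omit [DecidableEq ι] in
/-- Not in the tail: nothing big. -/
lemma Gz_zero (P : Par d) (α : ι → Fin d → ℝ) {i : Fin d} {ℓ : ℕ} (h : P.e ≤ P.lam i ℓ) (C : Finset ι) :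
    P.Gz α i ℓ C = 0 ∧ P.Tz α i ℓ C = 0 := by
  classical
  have h0 : ∀ v, ¬ P.Bg α i ℓ v := fun v hv => absurd hv.1 (not_lt.mpr h)
  constructor
  · unfold Par.Gz
    rw [Finset.sum_filter]
    exact Finset.sum_eq_zero fun v _ => by simp [h0 v]
  · unfold Par.Tz
    rw [Finset.sum_filter]
    exact Finset.sum_eq_zero fun v _ => by simp [h0 v]

/-- Total variation of the big entries is at most the clipped count. -/
lemma Tz_le_cl (P : Par d) (hα : ∀ v, ∑ i, α v i ^ 2 ≤ 1) (i : Fin d) (ℓ : ℕ) (C : Finset ι) :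
    P.Tz α i ℓ C ≤ ∑ v ∈ C, P.cl α ℓ v := by
  classical
  have h1 := P.sum_big_le α ℓ C (C.filter fun v => P.Bg α i ℓ v) (Finset.filter_subset _ _)
    (fun v hv => (Finset.mem_filter.mp hv).2.2) (fun v => α v i) 1 zero_le_one
    (fun v _ => Par.unit_abs hα v i)
  rw [mul_one] at h1
  unfold Par.Tz
  convert h1

include Q in
open Classical in
/-- One level of `Gz` for a tail coordinate: new big elements. -/
lemma Ext.Gz_step (α : ι → Fin d → ℝ) (i : Fin d) (ℓ : ℕ) (C : Finset ι) :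
    P.Gz α i (ℓ + 1) C = P.Gz α i ℓ C
      + ∑ v ∈ C with (¬ P.Bg α i ℓ v ∧ P.Bg α i (ℓ + 1) v), α v i := by
  unfold Par.Gz
  rw [Finset.sum_filter, Finset.sum_filter, Finset.sum_filter, ← Finset.sum_add_distrib]
  refine Finset.sum_congr rfl fun v _ => ?_
  by_cases h1 : P.Bg α i ℓ v
  · simp [h1, Q.Bg_mono h1]
  · by_cases h2 : P.Bg α i (ℓ + 1) v <;> simp [h1, h2]

include Q in
open Classical in
/-- One level of `Tz` for a tail coordinate: new big elements. -/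
lemma Ext.Tz_step (α : ι → Fin d → ℝ) (i : Fin d) (ℓ : ℕ) (C : Finset ι) :
    P.Tz α i (ℓ + 1) C = P.Tz α i ℓ C
      + ∑ v ∈ C with (¬ P.Bg α i ℓ v ∧ P.Bg α i (ℓ + 1) v), |α v i| := by
  unfold Par.Tz
  rw [Finset.sum_filter, Finset.sum_filter, Finset.sum_filter, ← Finset.sum_add_distrib]
  refine Finset.sum_congr rfl fun v _ => ?_
  by_cases h1 : P.Bg α i ℓ v
  · simp [h1, Q.Bg_mono h1]
  · by_cases h2 : P.Bg α i (ℓ + 1) v <;> simp [h1, h2]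

include Q in
open Classical in
/-- The new big elements of a tail coordinate have small entries. -/
lemma Ext.TE_le {i : Fin d} {ℓ : ℕ} (h : P.lam i ℓ < P.e) (C : Finset ι) :
    ∑ v ∈ C with (¬ P.Bg α i ℓ v ∧ P.Bg α i (ℓ + 1) v), |α v i|
      ≤ (∑ v ∈ C, P.cl α (ℓ + 1) v) * P.ss i ℓ := by
  have hσ := P.σ_pos
  have h2 : P.lam i ℓ ≤ 2 * P.σ := by
    have := P.e_le_σ
    linarith
  refine P.sum_big_le α (ℓ + 1) C _ (Finset.filter_subset _ _) (fun v hv => ?_) (fun v => α v i)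
    (P.ss i ℓ) (Real.sqrt_nonneg _) (fun v hv => ?_)
  · exact (Finset.mem_filter.mp hv).2.2.2
  · have h3 := (Finset.mem_filter.mp hv).2.1
    have h4 : P.uu α ℓ v ≤ 1 := by
      by_contra h5
      exact h3 ⟨h, not_le.mp h5⟩
    exact Q.entry_le h2 h4

include Q in
/-- Decomposition of a tail coordinate into the small and the big part. -/
lemma Ext.small_add_big (α : ι → Fin d → ℝ) {i : Fin d} {ℓ : ℕ} (h : P.lam i ℓ < P.e) (C : Finset ι) :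
    ∑ v ∈ C, α v i = ∑ v ∈ C, (if P.uu α ℓ v ≤ 1 then α v i else 0) + P.Gz α i ℓ C := by
  classical
  unfold Par.Gz
  rw [Finset.sum_filter, ← Finset.sum_add_distrib]
  refine Finset.sum_congr rfl fun v _ => ?_
  by_cases h1 : P.uu α ℓ v ≤ 1
  · have h2 : ¬ P.Bg α i ℓ v := fun h3 => absurd h3.2 (not_lt.mpr h1)
    simp [h1, h2]
  · have h2 : P.Bg α i ℓ v := ⟨h, not_le.mp h1⟩
    simp [h1, h2]

end Vale.Agent.P262H
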