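import Vale.Agent.P262N.Big

/-! # Count closure, near-diagonal closure, size, for the children of a split. -/

open Finset

namespace Vale.Agent.P262H

variable {d : ℕ} {P : Par d} (Q : Ext P)
variable {ι : Type*} [DecidableEq ι] {α : ι → Fin d → ℝ}
variable {ℓ : ℕ} {B : Finset ι} {p q a : Fin d → ℝ} {L : Finset ι}

include Q in
/-- The clipped count of the next level on the parent block. -/
lemma Ext.sum_cl_succ (hE : ∀ i j, |MM α B i j - (if i = j then P.lam i ℓ else 0)| ≤ 5 * (P.tau i ℓ * P.tau j ℓ))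
    (hC : ∑ v ∈ B, P.cl α ℓ v ≤ P.Cs) :
    ∑ v ∈ B, P.cl α (ℓ + 1) v ≤ √2 * P.Cs + 19 * P.σ := by
  have hs2 : 1 ≤ √2 := Real.one_le_sqrt.mpr (by norm_num)
  have hσ10 := Q.hσ10
  have hd : (0 : ℝ) < d := by
    have := P.d_ge
    linarith
  set c : Fin d → Prop := fun i => P.lam i (ℓ + 1) ≤ 2 * P.σ ∧ 2 * P.σ < P.lam i ℓ with hc
  set Ent : ι → ℝ := fun v => ∑ i, if c i then P.Wt i (ℓ + 1) * α v i ^ 2 else 0 with hEnt
  have hEnt0 : ∀ v, 0 ≤ Ent v := fun v => Finset.sum_nonneg fun i _ => by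
    split_ifs
    · exact mul_nonneg (P.Wt_nonneg i _) (sq_nonneg _)
    · exact le_rfl
  have h1 : ∀ v, P.cl α (ℓ + 1) v ≤ √2 * P.cl α ℓ v + Ent v := by
    intro v
    have hu : P.uu α (ℓ + 1) v ≤ √2 * P.uu α ℓ v + Ent v := Q.uu_step α ℓ v
    by_cases h : P.uu α ℓ v ≤ 1
    · have e : P.cl α ℓ v = P.uu α ℓ v := min_eq_left h
      rw [e]
      exact (min_le_left _ _).trans hu
    · have e : P.cl α ℓ v = 1 := P.cl_eq_one (not_le.mp h)
      rw [e]
      have h2 := P.cl_le_one α (ℓ + 1) v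
      have h3 := hEnt0 v
      linarith
  have h2 : ∑ v ∈ B, Ent v ≤ 19 * P.σ := by
    have e : ∑ v ∈ B, Ent v = ∑ i, if c i then P.Wt i (ℓ + 1) * MM α B i i else 0 := by
      simp only [hEnt]
      rw [Finset.sum_comm]
      refine Finset.sum_congr rfl fun i _ => ?_
      by_cases hci : c i
      · simp only [if_pos hci]
        unfold MM
        rw [Finset.mul_sum]
        refine Finset.sum_congr rfl fun v _ => ?_
        ring
      · simp [if_neg hci]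
    rw [e]
    have hterm : ∀ i : Fin d, (if c i then P.Wt i (ℓ + 1) * MM α B i i else 0) ≤ 19 * P.σ / d := by
      intro i
      have hσ0 : 0 < P.σ := by linarith
      by_cases hci : c i
      · rw [if_pos hci]
        obtain ⟨h3, h4⟩ := hci
        have hlam : P.lam i ℓ ≤ 4 * P.σ := by
          have := P.lam_succ i ℓ
          linarith
        have htau : P.tau i ℓ ^ 2 ≤ 3 * P.σ := by
          rw [P.tau_sq]
          rw [Real.sqrt_le_iff]
          constructor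
          · linarith
          · nlinarith
        have hMM : MM α B i i ≤ 19 * P.σ := by
          have h5 := hE i i
          rw [if_pos rfl] at h5
          have h6 := (abs_le.mp h5).2
          nlinarith
        have hW := Q.Wt_entrant h3 h4
        have hW0 := P.Wt_nonneg i (ℓ + 1)
        have hMM0 : 0 ≤ MM α B i i := by
          unfold MM
          exact Finset.sum_nonneg fun v _ => mul_self_nonneg _
        rw [le_div_iff₀ hd]
        have h7 : P.Wt i (ℓ + 1) * MM α B i i * (d : ℝ) = (P.Wt i (ℓ + 1) * (d : ℝ)) * MM α B i i := by ring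
        rw [h7]
        have h8 := mul_le_mul_of_nonneg_right hW hMM0
        linarith
      · rw [if_neg hci]
        positivity
    calc _ ≤ ∑ _i : Fin d, 19 * P.σ / d := Finset.sum_le_sum fun i _ => hterm i
      _ = 19 * P.σ := by
        rw [Finset.sum_const, Finset.card_univ, Fintype.card_fin, nsmul_eq_mul]
        field_simp
  calc ∑ v ∈ B, P.cl α (ℓ + 1) v ≤ ∑ v ∈ B, (√2 * P.cl α ℓ v + Ent v) :=
        Finset.sum_le_sum fun v _ => h1 v
    _ = √2 * ∑ v ∈ B, P.cl α ℓ v + ∑ v ∈ B, Ent v := by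
        rw [Finset.sum_add_distrib, Finset.mul_sum]
    _ ≤ _ := by
        have := mul_le_mul_of_nonneg_left hC (by linarith : (0 : ℝ) ≤ √2)
        linarith

variable {Q}

lemma Ext.Sp.l1_small (hS : Q.Sp α ℓ B p q a L) : ∑ k, |a k| ≤ 2 * P.σ * (d / P.γ) := by
  have h1 := P.a_l1 ℓ a hS.ha0 hS.ha2
  have h2 := P.RR_le_d ℓ
  have hσ := P.σ_pos
  have := mul_le_mul_of_nonneg_left h2 (by positivity : 0 ≤ 2 * P.σ)
  linarith

/-- The shift is tiny. -/
lemma Ext.Sp.sh_small (hS : Q.Sp α ℓ B p q a L) (hα : ∀ v, ∑ i, α v i ^ 2 ≤ 1) (v : ι) :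
    |sh α a v| ≤ 1 / 100 :=
  (sh_abs_le α hα a v).trans (hS.l1_small.trans P.eta_small)

/-- The shift against a nonnegative function is small. -/
lemma Ext.Sp.sh_nonneg_le (hS : Q.Sp α ℓ B p q a L) (hα : ∀ v, ∑ i, α v i ^ 2 ≤ 1) (f : ι → ℝ)
    (hf : ∀ v, 0 ≤ f v) : |∑ v ∈ B, sh α a v * f v| ≤ 1 / 100 * ∑ v ∈ B, f v := by
  refine (Finset.abs_sum_le_sum_abs _ _).trans ?_
  rw [Finset.mul_sum]
  refine Finset.sum_le_sum fun v _ => ?_
  rw [abs_mul, abs_of_nonneg (hf v)]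
  exact mul_le_mul_of_nonneg_right (hS.sh_small hα v) (hf v)

lemma Par.cnt_num (P : Par d) {X : ℝ} (hX : X ≤ √2 * P.Cs + 19 * P.σ) :
    (1 / 2 + 1 / 100) * X + P.σ ≤ P.Cs := by
  have hσ := P.σ_pos
  have hs : √2 ≤ 1.4143 := by
    rw [Real.sqrt_le_iff]
    norm_num
  have hs0 : 0 ≤ √2 := Real.sqrt_nonneg 2
  unfold Par.Cs at hX ⊢
  have h1 : √2 * (40 * P.σ) ≤ 1.4143 * (40 * P.σ) :=
    mul_le_mul_of_nonneg_right hs (by positivity)
  nlinarith

lemma Ext.Sp.cnt_left (hS : Q.Sp α ℓ B p q a L) (hα : ∀ v, ∑ i, α v i ^ 2 ≤ 1)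
    (hE : ∀ i j, |MM α B i j - (if i = j then P.lam i ℓ else 0)| ≤ 5 * (P.tau i ℓ * P.tau j ℓ))
    (hC : ∑ v ∈ B, P.cl α ℓ v ≤ P.Cs) : ∑ v ∈ L, P.cl α (ℓ + 1) v ≤ P.Cs := by
  have h0 := Q.sum_cl_succ hE hC
  have h1 := sum_left (α := α) (a := a) hS.hLB (fun v => P.cl α (ℓ + 1) v)
  have h2 := hS.sh_nonneg_le hα (fun v => P.cl α (ℓ + 1) v) (fun v => P.cl_nonneg α _ v)
  have h3 := hS.N5
  have h4 := (abs_le.mp h2).2
  have h5 := (abs_le.mp h3).2
  have h6 := P.cnt_num h0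
  rw [h1]
  linarith

lemma Ext.Sp.cnt_right (hS : Q.Sp α ℓ B p q a L) (hα : ∀ v, ∑ i, α v i ^ 2 ≤ 1)
    (hE : ∀ i j, |MM α B i j - (if i = j then P.lam i ℓ else 0)| ≤ 5 * (P.tau i ℓ * P.tau j ℓ))
    (hC : ∑ v ∈ B, P.cl α ℓ v ≤ P.Cs) : ∑ v ∈ B \ L, P.cl α (ℓ + 1) v ≤ P.Cs := by
  have h0 := Q.sum_cl_succ hE hC
  have h1 := sum_right (α := α) (a := a) hS.hLB (fun v => P.cl α (ℓ + 1) v)
  have h2 := hS.sh_nonneg_le hα (fun v => P.cl α (ℓ + 1) v) (fun v => P.cl_nonneg α _ v)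
  have h3 := hS.N5
  have h4 := (abs_le.mp h2).1
  have h5 := (abs_le.mp h3).1
  have h6 := P.cnt_num h0
  rw [h1]
  linarith

/-- The two-term deviation for the product of two coordinates. -/
lemma Ext.Sp.dev_prod (hS : Q.Sp α ℓ B p q a L)
    (hE : ∀ i j, |MM α B i j - (if i = j then P.lam i ℓ else 0)| ≤ 5 * (P.tau i ℓ * P.tau j ℓ))
    (hα : ∀ v, ∑ i, α v i ^ 2 ≤ 1) (i j : Fin d) :
    |∑ v ∈ B, sh α a v * (α v i * α v j) + ∑ v ∈ B, ee α a L v * (α v i * α v j)|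
      ≤ P.tau i ℓ * P.tau j ℓ := by
  have hτ : 0 < P.tau i ℓ * P.tau j ℓ := mul_pos (P.tau_pos _ _) (P.tau_pos _ _)
  have hunit : ∀ v k, α v k ^ 2 ≤ 1 := fun v k => Par.unit_sq hα v k
  have hdi : ∀ k, MM α B k k ≤ 2 * P.tau k ℓ ^ 4 := by
    intro k
    have := hE k k
    rw [if_pos rfl] at this
    exact P.diag_le this
  -- the mixed fourth moment
  set X := ∑ v ∈ B, (α v i * α v j) ^ 2 with hX
  have hX0 : 0 ≤ X := Finset.sum_nonneg fun _ _ => sq_nonneg _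
  have hXi : X ≤ MM α B i i := by
    refine Finset.sum_le_sum fun v _ => ?_
    have := hunit v j
    nlinarith [sq_nonneg (α v i)]
  have hXj : X ≤ MM α B j j := by
    refine Finset.sum_le_sum fun v _ => ?_
    have := hunit v i
    nlinarith [sq_nonneg (α v j)]
  have hX2 : X ≤ 2 * (P.tau i ℓ * P.tau j ℓ) ^ 2 := by
    refine (pow_le_pow_iff_left₀ hX0 (by positivity) two_ne_zero).mp ?_
    have h1 := hXi.trans (hdi i)
    have h2 := hXj.trans (hdi j)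
    have h3 := mul_le_mul h1 h2 hX0 (by positivity)
    nlinarith
  have hCS : (∑ v ∈ B, sh α a v * (α v i * α v j)) ^ 2 ≤ (∑ v ∈ B, sh α a v ^ 2) * X :=
    Finset.sum_mul_sq_le_sq_mul_sq _ _ _
  have hsh : ∑ v ∈ B, sh α a v ^ 2 ≤ 1 / 8 := hS.ha3.trans (P.RR_small ℓ)
  have h1 : (∑ v ∈ B, sh α a v * (α v i * α v j)) ^ 2 ≤ (P.tau i ℓ * P.tau j ℓ / 2) ^ 2 := by
    have h2 := mul_le_mul hsh hX2 hX0 (by norm_num)
    have e : (P.tau i ℓ * P.tau j ℓ / 2) ^ 2 = 1 / 8 * (2 * (P.tau i ℓ * P.tau j ℓ) ^ 2) := by ring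
    rw [e]
    exact hCS.trans h2
  have h2 : |∑ v ∈ B, sh α a v * (α v i * α v j)| ≤ P.tau i ℓ * P.tau j ℓ / 2 :=
    abs_le_of_sq_le_sq' h1 (by positivity) |> abs_le.mpr
  have h3 := hS.N3 i j
  calc _ ≤ |∑ v ∈ B, sh α a v * (α v i * α v j)| + |∑ v ∈ B, ee α a L v * (α v i * α v j)| := abs_add_le _ _
    _ ≤ _ := by linarith

/-- Near-diagonal invariant for the children (as `Par.Split.hE_left`, `hE_right`). -/
lemma Ext.Sp.hE_left (hS : Q.Sp α ℓ B p q a L)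
    (hE : ∀ i j, |MM α B i j - (if i = j then P.lam i ℓ else 0)| ≤ 5 * (P.tau i ℓ * P.tau j ℓ))
    (hα : ∀ v, ∑ i, α v i ^ 2 ≤ 1) (i j : Fin d) :
    |MM α L i j - (if i = j then P.lam i (ℓ + 1) else 0)| ≤ 5 * (P.tau i (ℓ + 1) * P.tau j (ℓ + 1)) := by
  have h1 := hS.dev_prod hE hα i j
  have h2 := hE i j
  have h3 := P.tau_step i j ℓ
  have e : MM α L i j - (if i = j then P.lam i (ℓ + 1) else 0)
      = 1 / 2 * (MM α B i j - (if i = j then P.lam i ℓ else 0))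
        + (∑ v ∈ B, sh α a v * (α v i * α v j) + ∑ v ∈ B, ee α a L v * (α v i * α v j)) := by
    unfold MM
    rw [sum_left (α := α) (a := a) hS.hLB (fun v => α v i * α v j), P.lam_succ]
    split_ifs <;> ring
  rw [e]
  calc _ ≤ |1 / 2 * (MM α B i j - (if i = j then P.lam i ℓ else 0))|
        + |∑ v ∈ B, sh α a v * (α v i * α v j) + ∑ v ∈ B, ee α a L v * (α v i * α v j)| := abs_add_le _ _
    _ ≤ 1 / 2 * (5 * (P.tau i ℓ * P.tau j ℓ)) + P.tau i ℓ * P.tau j ℓ := by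
        rw [abs_mul, abs_of_pos (by norm_num : (0 : ℝ) < 1 / 2)]
        linarith
    _ ≤ _ := by linarith

lemma Ext.Sp.hE_right (hS : Q.Sp α ℓ B p q a L)
    (hE : ∀ i j, |MM α B i j - (if i = j then P.lam i ℓ else 0)| ≤ 5 * (P.tau i ℓ * P.tau j ℓ))
    (hα : ∀ v, ∑ i, α v i ^ 2 ≤ 1) (i j : Fin d) :
    |MM α (B \ L) i j - (if i = j then P.lam i (ℓ + 1) else 0)| ≤ 5 * (P.tau i (ℓ + 1) * P.tau j (ℓ + 1)) := by
  have h1 := hS.dev_prod hE hα i j
  have h2 := hE i j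
  have h3 := P.tau_step i j ℓ
  have e : MM α (B \ L) i j - (if i = j then P.lam i (ℓ + 1) else 0)
      = 1 / 2 * (MM α B i j - (if i = j then P.lam i ℓ else 0))
        - (∑ v ∈ B, sh α a v * (α v i * α v j) + ∑ v ∈ B, ee α a L v * (α v i * α v j)) := by
    unfold MM
    rw [sum_right (α := α) (a := a) hS.hLB (fun v => α v i * α v j), P.lam_succ]
    split_ifs <;> ring
  rw [e]
  calc _ ≤ |1 / 2 * (MM α B i j - (if i = j then P.lam i ℓ else 0))|
        + |∑ v ∈ B, sh α a v * (α v i * α v j) + ∑ v ∈ B, ee α a L v * (α v i * α v j)| := abs_sub _ _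
    _ ≤ 1 / 2 * (5 * (P.tau i ℓ * P.tau j ℓ)) + P.tau i ℓ * P.tau j ℓ := by
        rw [abs_mul, abs_of_pos (by norm_num : (0 : ℝ) < 1 / 2)]
        linarith
    _ ≤ _ := by linarith

/-- Sizes, as in `Par.node`. -/
lemma Ext.Sp.card_lt (hS : Q.Sp α ℓ B p q a L) (hα : ∀ v, ∑ i, α v i ^ 2 ≤ 1)
    (hq : ∀ i, q i - p i = ∑ v ∈ B, α v i) (hC : ∀ i, P.γ ≤ P.lam i ℓ → |p i| ≤ P.σ ∧ |q i| ≤ P.σ)
    (hsize : 2 * P.σ + 2 < (B.card : ℝ)) : L.card < B.card ∧ (B \ L).card < B.card := by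
  have hLB := hS.hLB
  have hσ := P.σ_pos
  have hsum1 : |∑ v ∈ B, sh α a v| ≤ 1 := by
    have e : ∑ v ∈ B, sh α a v = ∑ k, a k * (q k - p k) := by
      unfold sh
      rw [Finset.sum_comm]
      refine Finset.sum_congr rfl fun k _ => ?_
      rw [hq k, Finset.mul_sum]
    rw [e]
    have h1 : ∀ k, |a k * (q k - p k)| ≤ |a k| * (2 * P.σ) := by
      intro k
      rw [abs_mul]
      by_cases hk : P.lam k ℓ < P.γ
      · rw [hS.ha0 k hk]
        simp
      · obtain ⟨h2, h3⟩ := hC k (not_lt.mp hk)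
        apply mul_le_mul_of_nonneg_left _ (abs_nonneg _)
        have := abs_sub (q k) (p k)
        linarith
    calc _ ≤ ∑ k, |a k * (q k - p k)| := Finset.abs_sum_le_sum_abs _ _
      _ ≤ ∑ k, |a k| * (2 * P.σ) := Finset.sum_le_sum fun k _ => h1 k
      _ = (∑ k, |a k|) * (2 * P.σ) := by rw [Finset.sum_mul]
      _ ≤ (2 * P.σ * (d / P.γ)) * (2 * P.σ) :=
          mul_le_mul_of_nonneg_right hS.l1_small (by positivity)
      _ ≤ 1 := by
          have hγ := P.γ_pos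
          have h2 := P.γ_big'
          have e2 : 2 * P.σ * (d / P.γ) * (2 * P.σ) = 4 * P.σ ^ 2 * d / P.γ := by ring
          rw [e2, div_le_one hγ]
          nlinarith [sq_nonneg P.σ]
  have hcardL : (L.card : ℝ) = 1 / 2 * B.card + (∑ v ∈ B, sh α a v + ∑ v ∈ B, ee α a L v) := by
    have h1 := sum_left (α := α) (a := a) hLB (fun _ => (1 : ℝ))
    simp only [Finset.sum_const, nsmul_eq_mul, mul_one] at h1
    exact h1
  have hN4' : |∑ v ∈ B, ee α a L v| ≤ P.σ := hS.N4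
  have hs1 := abs_le.mp hsum1
  have hs2 := abs_le.mp hN4'
  have hcLt : (L.card : ℝ) < B.card := by
    rw [hcardL]
    linarith [hs1.2, hs2.2]
  have hcard2 : ((B \ L).card : ℝ) = B.card - L.card := by
    rw [Finset.card_sdiff_of_subset hLB, Nat.cast_sub (Finset.card_le_card hLB)]
  have hcRt : ((B \ L).card : ℝ) < B.card := by
    rw [hcard2, hcardL]
    linarith [hs1.1, hs2.1]
  exact ⟨by exact_mod_cast hcLt, by exact_mod_cast hcRt⟩

/-- The middle point on a corrected coordinate. -/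
lemma Ext.Sp.mid_corr (hS : Q.Sp α ℓ B p q a L) {i : Fin d} (hi : P.γ ≤ P.lam i ℓ)
    (hq : q i - p i = ∑ v ∈ B, α v i) : |p i + ∑ v ∈ L, α v i| ≤ P.σ := by
  rw [sum_left (α := α) (a := a) hS.hLB (fun v => α v i), sh_sum_coord, hS.hsol i hi, ← hq]
  have e : p i + (1 / 2 * (q i - p i) + (-(p i + q i) / 2 + ∑ v ∈ B, ee α a L v * α v i))
      = ∑ v ∈ B, ee α a L v * α v i := by ring
  rw [e]
  exact hS.N1 i hi

/-- The middle point on a zone coordinate. -/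
lemma Ext.Sp.mid_zone (hS : Q.Sp α ℓ B p q a L) {i : Fin d} (hq : q i - p i = ∑ v ∈ B, α v i) :
    p i + ∑ v ∈ L, α v i
      = (p i + q i) / 2 + ∑ v ∈ B, sh α a v * α v i + ∑ v ∈ B, ee α a L v * α v i := by
  rw [sum_left (α := α) (a := a) hS.hLB (fun v => α v i), ← hq]
  ring

/-- The spill on a frozen coordinate (from `Par.spill`). -/
lemma Ext.Sp.spill_zone (hS : Q.Sp α ℓ B p q a L)
    (hE : ∀ i j, |MM α B i j - (if i = j then P.lam i ℓ else 0)| ≤ 5 * (P.tau i ℓ * P.tau j ℓ))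
    {i : Fin d} (hi : P.lam i ℓ < P.γ) : |∑ v ∈ B, sh α a v * α v i| ≤ 17 * P.σ * P.rho ℓ := by
  rw [sh_sum_coord]
  have h1 := P.spill α B ℓ hE a hS.ha0 hS.ha2 hi
  have h2 := P.rho_nonneg ℓ
  have hσ := P.σ_pos
  have h3 : 0 ≤ P.σ * P.rho ℓ := mul_nonneg hσ.le h2
  nlinarith

/-- The middle point on a tail coordinate: deviation from the midpoint of the small paths. -/
lemma Ext.Sp.mid_tail (hS : Q.Sp α ℓ B p q a L) (hα : ∀ v, ∑ i, α v i ^ 2 ≤ 1)
    (hE : ∀ i j, |MM α B i j - (if i = j then P.lam i ℓ else 0)| ≤ 5 * (P.tau i ℓ * P.tau j ℓ))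
    (hC : ∑ v ∈ B, P.cl α ℓ v ≤ P.Cs) {i : Fin d} (hi : P.lam i ℓ < P.e)
    (hq : q i - p i = ∑ v ∈ B, α v i) :
    ∃ δ : ℝ, p i + ∑ v ∈ L, α v i - P.Gz α i ℓ L = (p i + (q i - P.Gz α i ℓ B)) / 2 + δ ∧
      |δ| ≤ P.σ * P.ss i ℓ + 17 * P.σ * P.rho ℓ := by
  have hσ := P.σ_pos
  have hγ := P.γ_pos
  have hLB := hS.hLB
  have hiγ : P.lam i ℓ < P.γ := by
    have h1 := P.two_e_le_γ
    have h2 := P.e_pos
    linarith
  set small : ι → ℝ := fun v => if P.uu α ℓ v ≤ 1 then α v i else 0 with hsmall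
  refine ⟨∑ v ∈ B, sh α a v * small v + ∑ v ∈ B, ee α a L v * small v, ?_, ?_⟩
  · have h1 : ∑ v ∈ L, α v i = ∑ v ∈ L, small v + P.Gz α i ℓ L := Q.small_add_big α hi L
    have h2 : ∑ v ∈ B, α v i = ∑ v ∈ B, small v + P.Gz α i ℓ B := Q.small_add_big α hi B
    have h3 := sum_left (α := α) (a := a) hLB small
    rw [h2] at hq
    rw [h1, h3]
    linarith
  · have e1 : ∑ v ∈ B, sh α a v * small v
        = ∑ k, a k * MM α B k i - ∑ v ∈ B with ¬ P.uu α ℓ v ≤ 1, sh α a v * α v i := by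
      rw [← sh_sum_coord, Finset.sum_filter, ← Finset.sum_sub_distrib]
      refine Finset.sum_congr rfl fun v _ => ?_
      by_cases h : P.uu α ℓ v ≤ 1 <;> simp [hsmall, h]
    have h1 := P.spill α B ℓ hE a hS.ha0 hS.ha2 hiγ
    have hbig : ∑ v ∈ B with ¬ P.uu α ℓ v ≤ 1, |α v i| ≤ P.Cs := by
      have h3 := P.sum_big_le α ℓ B (B.filter fun v => ¬ P.uu α ℓ v ≤ 1) (Finset.filter_subset _ _)
        (fun v hv => not_le.mp (Finset.mem_filter.mp hv).2) (fun v => α v i) 1 zero_le_one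
        (fun v _ => Par.unit_abs hα v i)
      rw [mul_one] at h3
      exact h3.trans hC
    have hCγ : P.Cs ≤ √P.γ := by
      apply Real.le_sqrt_of_sq_le
      have h4 := P.γ_ge_σ
      unfold Par.Cs
      nlinarith [sq_nonneg P.σ]
    have h2 : |∑ v ∈ B with ¬ P.uu α ℓ v ≤ 1, sh α a v * α v i| ≤ 2 * P.σ * P.rho ℓ := by
      have h3 : |∑ v ∈ B with ¬ P.uu α ℓ v ≤ 1, sh α a v * α v i|
          ≤ (∑ k, |a k|) * ∑ v ∈ B with ¬ P.uu α ℓ v ≤ 1, |α v i| := by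
        refine (Finset.abs_sum_le_sum_abs _ _).trans ?_
        rw [Finset.mul_sum]
        refine Finset.sum_le_sum fun v _ => ?_
        rw [abs_mul]
        exact mul_le_mul_of_nonneg_right (sh_abs_le α hα a v) (abs_nonneg _)
      have h4 := P.a_l1 ℓ a hS.ha0 hS.ha2
      have h5 := P.RR_le_rho ℓ
      have h6 := P.RR_nonneg ℓ
      have h7 := hbig.trans hCγ
      have h8 : 0 ≤ ∑ v ∈ B with ¬ P.uu α ℓ v ≤ 1, |α v i| :=
        Finset.sum_nonneg fun _ _ => abs_nonneg _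
      have h9 : 0 ≤ ∑ k, |a k| := Finset.sum_nonneg fun _ _ => abs_nonneg _
      calc _ ≤ (∑ k, |a k|) * ∑ v ∈ B with ¬ P.uu α ℓ v ≤ 1, |α v i| := h3
        _ ≤ (2 * P.σ * P.RR ℓ) * √P.γ := mul_le_mul h4 h7 h8 (by positivity)
        _ = 2 * P.σ * (√P.γ * P.RR ℓ) := by ring
        _ ≤ 2 * P.σ * P.rho ℓ := mul_le_mul_of_nonneg_left h5 (by positivity)
    have h3 := hS.N2 i hi
    rw [e1]
    have h4 := abs_add_le (∑ k, a k * MM α B k i - ∑ v ∈ B with ¬ P.uu α ℓ v ≤ 1, sh α a v * α v i)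
      (∑ v ∈ B, ee α a L v * small v)
    have h5 := abs_sub (∑ k, a k * MM α B k i) (∑ v ∈ B with ¬ P.uu α ℓ v ≤ 1, sh α a v * α v i)
    linarith

end Vale.Agent.P262H
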