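import Vale.Agent.P262H.Node2

/-!
# S_2(d) <= C sqrt(d log d): definitions (see notes/P262_helper7.md)

Same binary tree as `P262H`; positions of the frozen coordinates are controlled by one exponential
potential, and big elements by one clipped count row.
-/

open Finset

namespace Vale.Agent.P262H

variable {d : ℕ} (P : Par d)

/-- The lower end of the zone. -/
noncomputable def Par.e : ℝ := P.σ / (d : ℝ) ^ 2

/-- The bound for the clipped count. -/
noncomputable def Par.Cs : ℝ := 40 * P.σ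

/-- Size of the deterministic budget of a tail coordinate. -/
noncomputable def Par.D0 : ℝ := 520 * P.σ

/-- Number of levels of the zone. -/
noncomputable def Par.Lmax : ℝ := Real.logb 2 (2 * P.γ / P.e)

/-- Upper bound of the spill Lyapunov function. -/
noncomputable def Par.OmM : ℝ := 17 * P.σ * ((d : ℝ) * (5 / 2 * √(2 / P.γ)))

/-- The weight of a coordinate in the count. -/
noncomputable def Par.Wt (i : Fin d) (ℓ : ℕ) : ℝ := √(P.e / P.lam i ℓ)

/-- The bound for the entries of a coordinate in a small element. -/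
noncomputable def Par.ss (i : Fin d) (ℓ : ℕ) : ℝ := √(√(P.lam i ℓ / P.e))

/-- Remaining zone levels, as a function of the energy. -/
noncomputable def Par.Gf (x : ℝ) : ℝ := Real.logb 2 (2 * min (max x (P.e / 2)) P.γ / P.e)

/-- Deterministic budget, as a function of the energy. -/
noncomputable def Par.Dl (x : ℝ) : ℝ :=
  P.D0 * min 1 (√(√(x / P.e))) + if P.e ≤ x then 2 * P.Cs else 0

/-- The even exponential `exp (t w) + exp (-t w)`. -/
noncomputable def ch (t w : ℝ) : ℝ := Real.exp (t * w) + Real.exp (-(t * w))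

/-- The exponent of the zone factor. -/
noncomputable def xiOf (t η : ℝ) : ℝ := 10.58 * t ^ 2 + η

/-- The weight of a corrected coordinate in the potential. -/
noncomputable def Par.kc0 (t η : ℝ) : ℝ :=
  Real.exp (xiOf t η * P.Lmax) * Real.exp (t * (P.D0 + 2 * P.Cs + P.OmM)) * ch t P.σ

/-- The bound of the potential. -/
noncomputable def Par.Phi0 (t η : ℝ) : ℝ := (d : ℝ) * P.kc0 t η

/-- The number of hard rows. -/
noncomputable def Rows (d : ℕ) : ℝ := ((d : ℝ) + 1) ^ 2 + 1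

/-- What enters the hard tolerance. -/
noncomputable def Par.Aa0 (t η : ℝ) : ℝ := (P.Phi0 t η + 2 * η) * Rows d / η

/-- Additional parameters of the potential. -/
structure Ext (P : Par d) where
  t : ℝ
  η : ℝ
  ht : 0 < t
  hη : 0 < η
  hΛ : ∀ i, 0 < P.Λ i
  hσ10 : 10 ≤ P.σ
  hA1 : 1 ≤ Real.log (P.Aa0 t η)
  hA : 6.6 * √(Real.log (P.Aa0 t η)) ≤ P.σ

variable {P} (Q : Ext P)

/-- The zone factor exponent. -/
noncomputable def Ext.ξ : ℝ := xiOf Q.t Q.η

/-- The weight of a corrected coordinate. -/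
noncomputable def Ext.kc : ℝ := P.kc0 Q.t Q.η

/-- The bound of the potential. -/
noncomputable def Ext.Phi : ℝ := P.Phi0 Q.t Q.η

/-- The level weight of a frozen coordinate. -/
noncomputable def Ext.hh (i : Fin d) (ℓ : ℕ) : ℝ :=
  Real.exp (Q.ξ * P.Gf (P.lam i ℓ)) * Real.exp (Q.t * (P.Dl (P.lam i ℓ) + P.Om ℓ))

variable {ι : Type*} [DecidableEq ι] (α : ι → Fin d → ℝ)

/-- The weighted mass of an element, over the coordinates of energy at most `2 σ`. -/
noncomputable def Par.uu (P : Par d) (ℓ : ℕ) (v : ι) : ℝ :=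
  ∑ i, if P.lam i ℓ ≤ 2 * P.σ then P.Wt i ℓ * α v i ^ 2 else 0

/-- The clipped mass. -/
noncomputable def Par.cl (P : Par d) (ℓ : ℕ) (v : ι) : ℝ := min (P.uu α ℓ v) 1

/-- An element is big for the tail coordinate `i` at level `ℓ`. -/
def Par.Bg (P : Par d) (i : Fin d) (ℓ : ℕ) (v : ι) : Prop := P.lam i ℓ < P.e ∧ 1 < P.uu α ℓ v

open Classical in
/-- Sum of the big entries. -/
noncomputable def Par.Gz (P : Par d) (i : Fin d) (ℓ : ℕ) (C : Finset ι) : ℝ :=
  ∑ v ∈ C with P.Bg α i ℓ v, α v i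

open Classical in
/-- Total variation of the big entries. -/
noncomputable def Par.Tz (P : Par d) (i : Fin d) (ℓ : ℕ) (C : Finset ι) : ℝ :=
  ∑ v ∈ C with P.Bg α i ℓ v, |α v i|

/-- The potential: `w` is one of the end positions of a block. -/
noncomputable def Ext.Pt (ℓ : ℕ) (B : Finset ι) (w : Fin d → ℝ) : ℝ :=
  ∑ i, if P.γ ≤ P.lam i ℓ then Q.kc
    else Q.hh i ℓ * Real.exp (Q.t * P.Tz α i ℓ B) * ch Q.t (w i)

/-- The invariants of a node. -/
structure Ext.Inv (ℓ : ℕ) (B : Finset ι) (p q : Fin d → ℝ) : Prop where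
  hq : ∀ i, q i - p i = ∑ v ∈ B, α v i
  hE : ∀ i j, |∑ v ∈ B, α v i * α v j - (if i = j then P.lam i ℓ else 0)|
    ≤ 5 * (P.tau i ℓ * P.tau j ℓ)
  hC : ∀ i, P.γ ≤ P.lam i ℓ → |p i| ≤ P.σ ∧ |q i| ≤ P.σ
  hCnt : ∑ v ∈ B, P.cl α ℓ v ≤ P.Cs
  hP1 : Q.Pt α ℓ B p ≤ Q.Phi
  hP2 : Q.Pt α ℓ B (fun i => q i - P.Gz α i ℓ B) ≤ Q.Phi

/-- The extra energy charge of a coordinate entering the tail. -/
noncomputable def Par.entry (P : Par d) (i : Fin d) (ℓ : ℕ) : ℝ :=
  if P.lam i (ℓ + 1) < P.e then 2 * P.Cs else 0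

/-- The data of a split at a node. -/
structure Ext.Sp (ℓ : ℕ) (B : Finset ι) (p q a : Fin d → ℝ) (L : Finset ι) : Prop where
  hLB : L ⊆ B
  ha0 : ∀ k, P.lam k ℓ < P.γ → a k = 0
  hsol : ∀ i, P.γ ≤ P.lam i ℓ → ∑ k, a k * MM α B k i = -(p i + q i) / 2
  ha2 : ∑ k, P.lam k ℓ * a k ^ 2 ≤ 4 * P.σ ^ 2 * P.RR ℓ
  ha3 : ∑ v ∈ B, sh α a v ^ 2 ≤ 2 * P.σ ^ 2 * P.RR ℓ
  /-- soft rows: zone coordinates -/
  Ns : ∑ i, (if P.e ≤ P.lam i ℓ ∧ P.lam i ℓ < P.γ then
        Q.hh i (ℓ + 1) * Real.exp (Q.t * P.entry i ℓ) *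
          ch Q.t ((p i + q i) / 2 + ∑ v ∈ B, sh α a v * α v i + ∑ v ∈ B, ee α a L v * α v i)
      else 0)
    ≤ ∑ i, (if P.e ≤ P.lam i ℓ ∧ P.lam i ℓ < P.γ then
        Q.hh i (ℓ + 1) * Real.exp (Q.t * P.entry i ℓ) *
          ch Q.t ((p i + q i) / 2 + ∑ v ∈ B, sh α a v * α v i) * Real.exp Q.ξ
      else 0)
  /-- corrected coordinates -/
  N1 : ∀ i, P.γ ≤ P.lam i ℓ → |∑ v ∈ B, ee α a L v * α v i| ≤ P.σ
  /-- tail coordinates -/
  N2 : ∀ i, P.lam i ℓ < P.e →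
    |∑ v ∈ B, ee α a L v * (if P.uu α ℓ v ≤ 1 then α v i else 0)| ≤ P.σ * P.ss i ℓ
  N3 : ∀ i j, |∑ v ∈ B, ee α a L v * (α v i * α v j)| ≤ P.tau i ℓ * P.tau j ℓ / 2
  N4 : |∑ v ∈ B, ee α a L v| ≤ P.σ
  N5 : |∑ v ∈ B, ee α a L v * P.cl α (ℓ + 1) v| ≤ P.σ

end Vale.Agent.P262H
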