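import Vale.Agent.P262H.KR
import Vale.Agent.P262N.Defs

/-!
# Weighted Komlos rounding: each row has its own scale, weight and start.
Generalises `P262H.KR` (`Pot`, `GPot`, `sign_step`, `digits`, `kr_fin`).
-/

open MeasureTheory ProbabilityTheory Finset

namespace Vale.Agent.P262H

open Vale.Agent.P262.FB (Eu Adm fb_main)

section FinRows

variable {D : ℕ}

/-- The weighted potential. -/
noncomputable def WPot (τ ω x : Fin D → ℝ) : ℝ := ∑ e, ω e * ch (τ e) (x e)

/-- The weighted potential after a Gaussian shift. -/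
noncomputable def GWPot (τ ω : Fin D → ℝ) (ρ : ℝ) (x : Fin D → ℝ) (z : Eu D) : ℝ :=
  ∑ e, (ω e * Real.exp (τ e * x e) * Real.exp ((τ e * ρ) * z e)
    + ω e * Real.exp (-(τ e * x e)) * Real.exp ((-(τ e * ρ)) * z e))

lemma GWPot_eq (τ ω : Fin D → ℝ) (ρ : ℝ) (x : Fin D → ℝ) (z : Eu D) :
    GWPot τ ω ρ x z = WPot τ ω (fun e => x e + ρ * z e) := by
  unfold GWPot WPot ch
  refine Finset.sum_congr rfl fun e _ => ?_
  have e1 : Real.exp (τ e * x e) * Real.exp ((τ e * ρ) * z e)
      = Real.exp (τ e * (x e + ρ * z e)) := by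
    rw [← Real.exp_add]; congr 1; ring
  have e2 : Real.exp (-(τ e * x e)) * Real.exp ((-(τ e * ρ)) * z e)
      = Real.exp (-(τ e * (x e + ρ * z e))) := by
    rw [← Real.exp_add]; congr 1; ring
  show ω e * Real.exp (τ e * x e) * Real.exp ((τ e * ρ) * z e)
      + ω e * Real.exp (-(τ e * x e)) * Real.exp ((-(τ e * ρ)) * z e)
    = ω e * (Real.exp (τ e * (x e + ρ * z e)) + Real.exp (-(τ e * (x e + ρ * z e))))
  rw [← e1, ← e2]
  ring

lemma GWPot_adm (τ ω : Fin D → ℝ) (hω : ∀ e, 0 ≤ ω e) (ρ : ℝ) (x : Fin D → ℝ) :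
    Adm (GWPot τ ω ρ x) := by
  unfold GWPot
  exact Vale.Agent.P262.FB.Adm.sum (E := Eu D) (Finset.univ : Finset (Fin D))
    (fun e z => ω e * Real.exp (τ e * x e) * Real.exp ((τ e * ρ) * z e)
      + ω e * Real.exp (-(τ e * x e)) * Real.exp ((-(τ e * ρ)) * z e))
    (fun e _ => (adm_exp _ _ (mul_nonneg (hω e) (Real.exp_pos _).le) e).add
      (adm_exp _ _ (mul_nonneg (hω e) (Real.exp_pos _).le) e))

lemma GWPot_integral (τ ω : Fin D → ℝ) (ρ : ℝ) (x : Fin D → ℝ) :
    ∫ z, GWPot τ ω ρ x z ∂(stdGaussian (Eu D))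
      = ∑ e, ω e * ch (τ e) (x e) * Real.exp ((τ e * ρ) ^ 2 / 2) := by
  unfold GWPot ch
  rw [integral_finsetSum]
  · refine Finset.sum_congr rfl fun e _ => ?_
    rw [integral_add ((exp_coord_integrable _ e).const_mul _) ((exp_coord_integrable _ e).const_mul _),
      integral_const_mul, integral_const_mul, exp_coord_integral, exp_coord_integral]
    have : (-(τ e * ρ)) ^ 2 = (τ e * ρ) ^ 2 := by ring
    rw [this]
    ring
  · intro e _
    exact ((exp_coord_integrable _ e).const_mul _).add ((exp_coord_integrable _ e).const_mul _)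

/-- One application of the N-free signing theorem, weighted. -/
theorem wsign_step (n : ℕ) (l : ℕ → Fin D → ℝ) (hl : ∀ j, ∑ e, l j e ^ 2 ≤ 1)
    (τ ω : Fin D → ℝ) (hω : ∀ e, 0 ≤ ω e) (h : ℝ) (x : Fin D → ℝ) :
    ∃ ε : ℕ → ℝ, (∀ i, ε i = 1 ∨ ε i = -1) ∧
      WPot τ ω (fun e => x e + h * ∑ j ∈ range n, ε j * l j e)
        ≤ ∑ e, ω e * ch (τ e) (x e) * Real.exp (50 / 9 * τ e ^ 2 * h ^ 2) := by
  cases n with
  | zero =>
    refine ⟨fun _ => 1, fun _ => Or.inl rfl, ?_⟩
    simp only [range_zero, Finset.sum_empty, mul_zero, add_zero]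
    unfold WPot
    refine Finset.sum_le_sum fun e _ => ?_
    have h1 : 1 ≤ Real.exp (50 / 9 * τ e ^ 2 * h ^ 2) := Real.one_le_exp (by positivity)
    have h2 : 0 ≤ ω e * ch (τ e) (x e) :=
      mul_nonneg (hω e) (add_nonneg (Real.exp_pos _).le (Real.exp_pos _).le)
    nlinarith
  | succ m =>
    set ρ : ℝ := h / (3 / 10) with hρ
    let u : ℕ → Eu D := fun j => (3 / 10 : ℝ) • WithLp.toLp 2 (l j)
    have hu : ∀ i, ‖u i‖ ≤ 3 / 10 := by
      intro i
      have h0 : ‖(WithLp.toLp 2 (l i) : Eu D)‖ ≤ 1 := by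
        have h1 : ‖(WithLp.toLp 2 (l i) : Eu D)‖ ^ 2 ≤ 1 := by
          rw [EuclideanSpace.real_norm_sq_eq]
          exact hl i
        nlinarith [norm_nonneg (WithLp.toLp 2 (l i) : Eu D)]
      simp only [u]
      rw [norm_smul, Real.norm_eq_abs, abs_of_pos (by norm_num : (0 : ℝ) < 3 / 10)]
      nlinarith [norm_nonneg (WithLp.toLp 2 (l i) : Eu D)]
    let g : ℕ → Eu D → ℝ := fun s z => if s = m then GWPot τ ω ρ x z else 0
    have hg : ∀ i, Adm (g i) := by
      intro i
      by_cases hi : i = m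
      · simp only [g, hi, if_true]
        exact GWPot_adm τ ω hω ρ x
      · simp only [g, hi, if_false]
        exact Vale.Agent.P262.FB.Adm.zero
    obtain ⟨ε, hε, hsum⟩ := fb_main u g hu hg (m + 1)
    refine ⟨ε, hε, ?_⟩
    have hL : ∑ s ∈ range (m + 1), g s (∑ i ∈ range (s + 1), ε i • u i)
        = GWPot τ ω ρ x (∑ i ∈ range (m + 1), ε i • u i) := by
      rw [Finset.sum_eq_single m]
      · simp [g]
      · intro b _ hb
        simp [g, hb]
      · simp
    have hR : ∑ s ∈ range (m + 1), ∫ z, g s z ∂(stdGaussian (Eu D))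
        = ∑ e, ω e * ch (τ e) (x e) * Real.exp ((τ e * ρ) ^ 2 / 2) := by
      rw [Finset.sum_eq_single m]
      · simp only [g, if_true]
        exact GWPot_integral τ ω ρ x
      · intro b _ hb
        simp [g, hb]
      · simp
    rw [hL, hR, GWPot_eq] at hsum
    have e1 : (fun e => x e + ρ * (∑ i ∈ range (m + 1), ε i • u i) e)
        = (fun e => x e + h * ∑ j ∈ range (m + 1), ε j * l j e) := by
      funext e
      congr 1
      have : (∑ i ∈ range (m + 1), ε i • u i) e = ∑ i ∈ range (m + 1), ε i * ((3 / 10 : ℝ) * l i e) := by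
        rw [WithLp.ofLp_sum]
        simp [u, Finset.sum_apply]
      rw [this, hρ, Finset.mul_sum, Finset.mul_sum]
      refine Finset.sum_congr rfl fun j _ => ?_
      field_simp
    rw [e1] at hsum
    refine hsum.trans (le_of_eq ?_)
    refine Finset.sum_congr rfl fun e _ => ?_
    congr 2
    rw [hρ]
    field_simp
    ring

variable {ι : Type*} [DecidableEq ι]

/-- The weighted signing step indexed by a finite set. -/
theorem wsign_step_set (S : Finset ι) (l : ι → Fin D → ℝ) (hl : ∀ v, ∑ e, l v e ^ 2 ≤ 1)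
    (τ ω : Fin D → ℝ) (hω : ∀ e, 0 ≤ ω e) (h : ℝ) (x : Fin D → ℝ) :
    ∃ ε : ι → ℝ, (∀ v, ε v = 1 ∨ ε v = -1) ∧
      WPot τ ω (fun e => x e + h * ∑ v ∈ S, ε v * l v e)
        ≤ ∑ e, ω e * ch (τ e) (x e) * Real.exp (50 / 9 * τ e ^ 2 * h ^ 2) := by
  classical
  let n := S.card
  let f : Fin n ≃ S := S.equivFin.symm
  let l' : ℕ → Fin D → ℝ := fun j => if hj : j < n then l (f ⟨j, hj⟩).1 else 0
  have hl' : ∀ j, ∑ e, l' j e ^ 2 ≤ 1 := by
    intro j
    by_cases hj : j < n
    · simp only [l', hj, dif_pos]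
      exact hl _
    · simp [l', hj]
  obtain ⟨ε, hε, hb⟩ := wsign_step n l' hl' τ ω hω h x
  let ε' : ι → ℝ := fun v => if hv : v ∈ S then ε (S.equivFin ⟨v, hv⟩).1 else 1
  refine ⟨ε', ?_, ?_⟩
  · intro v
    by_cases hv : v ∈ S
    · simp only [ε', hv, dif_pos]
      exact hε _
    · simp [ε', hv]
  · have e1 : ∀ e, ∑ j ∈ range n, ε j * l' j e = ∑ v ∈ S, ε' v * l v e := by
      intro e
      rw [Finset.sum_range, ← Finset.sum_coe_sort S, ← Equiv.sum_comp f]
      refine Finset.sum_congr rfl fun j _ => ?_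
      have hv : (f j).1 ∈ S := (f j).2
      simp only [l', j.2, dif_pos, ε', hv]
      have : S.equivFin ⟨(f j).1, hv⟩ = j := by
        simp [f]
      rw [this]
    simp only [e1] at hb
    exact hb

/-- Digit by digit rounding of a dyadic fractional start, weighted. -/
theorem wdigits (B : Finset ι) (l : ι → Fin D → ℝ) (hl : ∀ v, ∑ e, l v e ^ 2 ≤ 1)
    (τ : Fin D → ℝ) (K : ℕ) :
    ∀ (y : ι → ℝ), (∀ v ∈ B, 0 ≤ y v ∧ y v ≤ 1 ∧ ∃ m : ℤ, y v * 2 ^ K = m) →
    ∀ (ω : Fin D → ℝ), (∀ e, 0 ≤ ω e) → ∀ x : Fin D → ℝ,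
      ∃ L ⊆ B, WPot τ ω (fun e => x e + ∑ v ∈ B, ((if v ∈ L then 1 else 0) - y v) * l v e)
        ≤ ∑ e, ω e * ch (τ e) (x e)
            * Real.exp (50 / 9 * τ e ^ 2 * ∑ k ∈ range K, (1 / 4 : ℝ) ^ (k + 1)) := by
  classical
  induction K with
  | zero =>
    intro y hy ω hω x
    refine ⟨B.filter (fun v => y v = 1), Finset.filter_subset _ _, ?_⟩
    have h0 : ∀ v ∈ B, ((if v ∈ B.filter (fun v => y v = 1) then 1 else 0) - y v) = 0 := by
      intro v hv
      obtain ⟨h1, h2, m, hm⟩ := hy v hv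
      simp only [pow_zero, mul_one] at hm
      have hm0 : (0 : ℤ) ≤ m := by
        have : (0 : ℝ) ≤ m := hm ▸ h1
        exact_mod_cast this
      have hm1 : m ≤ 1 := by
        have : (m : ℝ) ≤ 1 := hm ▸ h2
        exact_mod_cast this
      have hcases : m = 0 ∨ m = 1 := by omega
      rcases hcases with rfl | rfl
      · have : y v = 0 := by simpa using hm
        simp [this, hv]
      · have : y v = 1 := by simpa using hm
        simp [this, hv]
    have e1 : ∀ e, ∑ v ∈ B, ((if v ∈ B.filter (fun v => y v = 1) then (1 : ℝ) else 0) - y v) * l v e = 0 := by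
      intro e
      refine Finset.sum_eq_zero fun v hv => ?_
      rw [h0 v hv, zero_mul]
    simp only [e1, add_zero, range_zero, Finset.sum_empty, mul_zero, Real.exp_zero, mul_one]
    exact le_rfl
  | succ K ih =>
    intro y hy ω hω x
    set h : ℝ := (1 / 2 : ℝ) ^ (K + 1) with hh
    have hh0 : 0 < h := by positivity
    have hh2 : h * 2 ^ (K + 1) = 1 := by
      rw [hh, ← mul_pow]; norm_num
    let S := B.filter (fun v => ∃ m : ℤ, Odd m ∧ y v * 2 ^ (K + 1) = m)
    let E : Fin D → ℝ := fun e => Real.exp (50 / 9 * τ e ^ 2 * ∑ k ∈ range K, (1 / 4 : ℝ) ^ (k + 1))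
    have hωE : ∀ e, 0 ≤ ω e * E e := fun e => mul_nonneg (hω e) (Real.exp_pos _).le
    obtain ⟨ε, hε, hb⟩ := wsign_step_set S l hl τ (fun e => ω e * E e) hωE h x
    let y' : ι → ℝ := fun v => if v ∈ S then y v + h * ε v else y v
    have hy' : ∀ v ∈ B, 0 ≤ y' v ∧ y' v ≤ 1 ∧ ∃ m : ℤ, y' v * 2 ^ K = m := by
      intro v hv
      obtain ⟨h1, h2, m, hm⟩ := hy v hv
      have h2K : (0 : ℝ) < 2 ^ K := by positivity
      have hpow : (2 : ℝ) ^ (K + 1) = 2 * 2 ^ K := by rw [pow_succ]; ring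
      by_cases hvS : v ∈ S
      · obtain ⟨-, m', hodd, hm'⟩ := Finset.mem_filter.mp hvS
        have hm'0 : (0 : ℝ) ≤ m' := by rw [← hm']; positivity
        have hm'0' : (0 : ℤ) ≤ m' := by exact_mod_cast hm'0
        have hm'1 : (m' : ℝ) ≤ 2 ^ (K + 1) := by
          rw [← hm']
          have : (0 : ℝ) < 2 ^ (K + 1) := by positivity
          nlinarith
        have hm'1' : m' ≤ 2 ^ (K + 1) := by exact_mod_cast hm'1
        obtain ⟨c, hc⟩ := hodd
        have hev : (2 : ℤ) ^ (K + 1) = 2 * 2 ^ K := by rw [pow_succ]; ring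
        have hlo : (1 : ℤ) ≤ m' := by omega
        have hhi : m' + 1 ≤ 2 ^ (K + 1) := by omega
        have hlo' : (1 : ℝ) ≤ m' := by exact_mod_cast hlo
        have hhi' : (m' : ℝ) + 1 ≤ 2 ^ (K + 1) := by exact_mod_cast hhi
        have hyv : y v = m' * h := by
          have : y v * (2 ^ (K + 1) * h) = m' * h := by rw [← mul_assoc, hm']
          rw [mul_comm (2 ^ (K + 1) : ℝ) h, hh2, mul_one] at this
          exact this
        simp only [y', hvS, if_true]
        rcases hε v with he | he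
        · rw [he]
          refine ⟨by positivity, ?_, c + 1, ?_⟩
          · rw [hyv]
            have : ((m' : ℝ) + 1) * h ≤ 2 ^ (K + 1) * h := mul_le_mul_of_nonneg_right hhi' hh0.le
            rw [mul_comm ((2 : ℝ) ^ (K + 1)) h, hh2] at this
            linarith
          · have e1 : h * 2 ^ K = 1 / 2 := by
              rw [hh, pow_succ, mul_assoc, mul_comm, mul_assoc, ← mul_pow]; norm_num
            have e2 : (m' : ℝ) = 2 * c + 1 := by rw [hc]; push_cast; ring
            have e3 : y v * 2 ^ K = m' / 2 := by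
              have : y v * (2 * 2 ^ K) = m' := by rw [← hpow]; exact hm'
              linarith
            calc (y v + h * 1) * 2 ^ K = y v * 2 ^ K + h * 2 ^ K := by ring
              _ = _ := by rw [e1, e3, e2]; push_cast; ring
        · rw [he]
          refine ⟨?_, ?_, c, ?_⟩
          · rw [hyv]
            have : (1 : ℝ) * h ≤ m' * h := mul_le_mul_of_nonneg_right hlo' hh0.le
            linarith
          · linarith
          · have e1 : h * 2 ^ K = 1 / 2 := by
              rw [hh, pow_succ, mul_assoc, mul_comm, mul_assoc, ← mul_pow]; norm_num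
            have e2 : (m' : ℝ) = 2 * c + 1 := by rw [hc]; push_cast; ring
            have e3 : y v * 2 ^ K = m' / 2 := by
              have : y v * (2 * 2 ^ K) = m' := by rw [← hpow]; exact hm'
              linarith
            calc (y v + h * (-1)) * 2 ^ K = y v * 2 ^ K - h * 2 ^ K := by ring
              _ = _ := by rw [e1, e3, e2]; ring
      · simp only [y', hvS, if_false]
        refine ⟨h1, h2, ?_⟩
        have hnot : ¬ ∃ m : ℤ, Odd m ∧ y v * 2 ^ (K + 1) = m := by
          intro hex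
          exact hvS (Finset.mem_filter.mpr ⟨hv, hex⟩)
        have heven : Even m := by
          by_contra hne
          exact hnot ⟨m, Int.not_even_iff_odd.mp hne, hm⟩
        obtain ⟨c, hc⟩ := heven
        refine ⟨c, ?_⟩
        have : y v * (2 * 2 ^ K) = m := by rw [← hpow]; exact hm
        have e2 : (m : ℝ) = c + c := by rw [hc]; push_cast; ring
        linarith
    obtain ⟨L, hLB, hL⟩ := ih y' hy' ω hω (fun e => x e + h * ∑ v ∈ S, ε v * l v e)
    refine ⟨L, hLB, ?_⟩
    have e1 : (fun e => x e + ∑ v ∈ B, ((if v ∈ L then 1 else 0) - y v) * l v e)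
        = (fun e => (x e + h * ∑ v ∈ S, ε v * l v e)
            + ∑ v ∈ B, ((if v ∈ L then 1 else 0) - y' v) * l v e) := by
      funext e
      have e2 : ∑ v ∈ B, ((if v ∈ L then 1 else 0) - y v) * l v e
          = ∑ v ∈ B, ((if v ∈ L then 1 else 0) - y' v) * l v e + ∑ v ∈ B, (y' v - y v) * l v e := by
        rw [← Finset.sum_add_distrib]
        refine Finset.sum_congr rfl fun v _ => ?_
        ring
      have e3 : ∑ v ∈ B, (y' v - y v) * l v e = h * ∑ v ∈ S, ε v * l v e := by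
        rw [Finset.mul_sum]
        have hsub : S ⊆ B := Finset.filter_subset _ _
        rw [← Finset.sum_subset hsub]
        · refine Finset.sum_congr rfl fun v hv => ?_
          simp only [y', hv, if_true]
          ring
        · intro v _ hv
          simp only [y', hv, if_false]
          ring
      rw [e2, e3]
      ring
    rw [e1]
    refine hL.trans ?_
    have hle : ∑ e, ω e * ch (τ e) (x e + h * ∑ v ∈ S, ε v * l v e) * E e
        ≤ ∑ e, ω e * E e * ch (τ e) (x e) * Real.exp (50 / 9 * τ e ^ 2 * h ^ 2) := by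
      refine le_trans (le_of_eq ?_) hb
      unfold WPot
      refine Finset.sum_congr rfl fun e _ => ?_
      ring
    refine hle.trans (le_of_eq ?_)
    refine Finset.sum_congr rfl fun e _ => ?_
    have hexp : Real.exp (50 / 9 * τ e ^ 2 * ∑ k ∈ range (K + 1), (1 / 4 : ℝ) ^ (k + 1))
        = E e * Real.exp (50 / 9 * τ e ^ 2 * h ^ 2) := by
      simp only [E]
      rw [← Real.exp_add, Finset.sum_range_succ]
      congr 1
      have : h ^ 2 = (1 / 4 : ℝ) ^ (K + 1) := by
        rw [hh, ← pow_mul, mul_comm, pow_mul]; norm_num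
      rw [this]
      ring
    rw [hexp]
    ring

lemma ch_shift_krw (t w a : ℝ) : ch t (w + a) ≤ Real.exp (|t| * |a|) * ch t w := by
  unfold ch
  have h1 : t * a ≤ |t| * |a| := by
    rw [← abs_mul]; exact le_abs_self _
  have h2 : -(t * a) ≤ |t| * |a| := by
    rw [← abs_mul]; exact neg_le_abs _
  have e1 : Real.exp (t * (w + a)) ≤ Real.exp (|t| * |a|) * Real.exp (t * w) := by
    rw [← Real.exp_add]
    exact Real.exp_le_exp.mpr (by nlinarith)
  have e2 : Real.exp (-(t * (w + a))) ≤ Real.exp (|t| * |a|) * Real.exp (-(t * w)) := by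
    rw [← Real.exp_add]
    exact Real.exp_le_exp.mpr (by nlinarith)
  have h := add_le_add e1 e2
  rw [← mul_add] at h
  exact h

/-- Weighted rounding, rows indexed by `Fin D`. -/
theorem krw_fin (B : Finset ι) (l : ι → Fin D → ℝ) (hl : ∀ v, ∑ e, l v e ^ 2 ≤ 1)
    (y : ι → ℝ) (hy : ∀ v ∈ B, 0 ≤ y v ∧ y v ≤ 1)
    (τ ω x : Fin D → ℝ) (hω : ∀ e, 0 ≤ ω e) :
    ∃ L ⊆ B, ∑ e, ω e * ch (τ e) (x e + ∑ v ∈ B, ((if v ∈ L then 1 else 0) - y v) * l v e)
      ≤ ∑ e, ω e * ch (τ e) (x e) * Real.exp (2 * τ e ^ 2) := by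
  classical
  obtain ⟨δ, hδ0, hδ⟩ : ∃ δ : ℝ, 0 < δ ∧ ∀ e, τ e ≠ 0 → δ ≤ 4 / 27 * |τ e| := by
    by_cases hne : (Finset.univ.filter (fun e => τ e ≠ 0)).Nonempty
    · obtain ⟨e0, he0, hmin⟩ := Finset.exists_min_image _ (fun e => |τ e|) hne
      have h0 : τ e0 ≠ 0 := (Finset.mem_filter.mp he0).2
      refine ⟨4 / 27 * |τ e0|, by have := abs_pos.mpr h0; positivity, fun e he => ?_⟩
      have := hmin e (Finset.mem_filter.mpr ⟨Finset.mem_univ e, he⟩)
      linarith
    · refine ⟨1, one_pos, fun e he => ?_⟩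
      exact absurd ⟨e, Finset.mem_filter.mpr ⟨Finset.mem_univ e, he⟩⟩ hne
  obtain ⟨K, hK⟩ : ∃ K : ℕ, (B.card : ℝ) * (1 / 2 : ℝ) ^ K ≤ δ := by
    obtain ⟨K, hK⟩ := exists_pow_lt_of_lt_one (show (0 : ℝ) < δ / (B.card + 1) by positivity)
      (show (1 / 2 : ℝ) < 1 by norm_num)
    refine ⟨K, ?_⟩
    rw [lt_div_iff₀ (by positivity)] at hK
    have h0 : 0 < (1 / 2 : ℝ) ^ K := by positivity
    nlinarith
  let y' : ι → ℝ := fun v => (⌊y v * 2 ^ K⌋ : ℝ) / 2 ^ K
  have h2K : (0 : ℝ) < 2 ^ K := by positivity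
  have hy' : ∀ v ∈ B, 0 ≤ y' v ∧ y' v ≤ 1 ∧ ∃ m : ℤ, y' v * 2 ^ K = m := by
    intro v hv
    obtain ⟨h1, h2⟩ := hy v hv
    refine ⟨?_, ?_, ⌊y v * 2 ^ K⌋, ?_⟩
    · apply div_nonneg _ h2K.le
      have : (0 : ℤ) ≤ ⌊y v * 2 ^ K⌋ := Int.floor_nonneg.mpr (by positivity)
      exact_mod_cast this
    · rw [div_le_one h2K]
      have := Int.floor_le (y v * 2 ^ K)
      nlinarith
    · simp only [y']
      field_simp
  have hdiff : ∀ v ∈ B, |y v - y' v| ≤ (1 / 2 : ℝ) ^ K := by
    intro v _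
    have h1 := Int.floor_le (y v * 2 ^ K)
    have h2 := Int.lt_floor_add_one (y v * 2 ^ K)
    have e : y v - y' v = (y v * 2 ^ K - ⌊y v * 2 ^ K⌋) * (1 / 2 : ℝ) ^ K := by
      simp only [y']
      have : (1 / 2 : ℝ) ^ K = 1 / 2 ^ K := by rw [one_div_pow]
      rw [this]
      field_simp
    rw [e, abs_mul, abs_of_nonneg (by linarith : 0 ≤ y v * 2 ^ K - ⌊y v * 2 ^ K⌋),
      abs_of_pos (by positivity : (0 : ℝ) < (1 / 2) ^ K)]
    have : 0 < (1 / 2 : ℝ) ^ K := by positivity
    nlinarith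
  let ω' : Fin D → ℝ := fun e => ω e * Real.exp (|τ e| * δ)
  have hω' : ∀ e, 0 ≤ ω' e := fun e => mul_nonneg (hω e) (Real.exp_pos _).le
  obtain ⟨L, hLB, hL⟩ := wdigits B l hl τ K y' hy' ω' hω' x
  refine ⟨L, hLB, ?_⟩
  have hlab : ∀ v e, |l v e| ≤ 1 := by
    intro v e
    have h1 : l v e ^ 2 ≤ ∑ c, l v c ^ 2 :=
      Finset.single_le_sum (f := fun c => l v c ^ 2) (fun _ _ => sq_nonneg _) (Finset.mem_univ e)
    have h2 := hl v
    exact abs_le_one_iff_mul_self_le_one.mpr (by nlinarith)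
  have hsmall : ∀ e, |∑ v ∈ B, (y' v - y v) * l v e| ≤ δ := by
    intro e
    refine (Finset.abs_sum_le_sum_abs _ _).trans ?_
    calc ∑ v ∈ B, |(y' v - y v) * l v e| ≤ ∑ _v ∈ B, (1 / 2 : ℝ) ^ K := by
          refine Finset.sum_le_sum fun v hv => ?_
          rw [abs_mul, abs_sub_comm]
          have h0 := hdiff v hv
          have h1 := hlab v e
          have h2 := abs_nonneg (y v - y' v)
          nlinarith
      _ = (B.card : ℝ) * (1 / 2 : ℝ) ^ K := by simp
      _ ≤ δ := hK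
  calc ∑ e, ω e * ch (τ e) (x e + ∑ v ∈ B, ((if v ∈ L then 1 else 0) - y v) * l v e)
      ≤ ∑ e, ω' e * ch (τ e) (x e + ∑ v ∈ B, ((if v ∈ L then 1 else 0) - y' v) * l v e) := by
        refine Finset.sum_le_sum fun e _ => ?_
        have hsplit : x e + ∑ v ∈ B, ((if v ∈ L then 1 else 0) - y v) * l v e
            = (x e + ∑ v ∈ B, ((if v ∈ L then 1 else 0) - y' v) * l v e)
              + ∑ v ∈ B, (y' v - y v) * l v e := by
          rw [add_assoc, ← Finset.sum_add_distrib]
          congr 1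
          refine Finset.sum_congr rfl fun v _ => ?_
          ring
        rw [hsplit]
        have h1 := ch_shift_krw (τ e) (x e + ∑ v ∈ B, ((if v ∈ L then 1 else 0) - y' v) * l v e)
          (∑ v ∈ B, (y' v - y v) * l v e)
        have h2 : Real.exp (|τ e| * |∑ v ∈ B, (y' v - y v) * l v e|) ≤ Real.exp (|τ e| * δ) :=
          Real.exp_le_exp.mpr (mul_le_mul_of_nonneg_left (hsmall e) (abs_nonneg _))
        have h3 : 0 ≤ ch (τ e) (x e + ∑ v ∈ B, ((if v ∈ L then 1 else 0) - y' v) * l v e) :=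
          add_nonneg (Real.exp_pos _).le (Real.exp_pos _).le
        simp only [ω']
        calc ω e * _ ≤ ω e * (Real.exp (|τ e| * δ) *
              ch (τ e) (x e + ∑ v ∈ B, ((if v ∈ L then 1 else 0) - y' v) * l v e)) :=
              mul_le_mul_of_nonneg_left (h1.trans (mul_le_mul_of_nonneg_right h2 h3)) (hω e)
          _ = _ := by ring
    _ ≤ ∑ e, ω' e * ch (τ e) (x e)
            * Real.exp (50 / 9 * τ e ^ 2 * ∑ k ∈ range K, (1 / 4 : ℝ) ^ (k + 1)) := hL
    _ ≤ ∑ e, ω e * ch (τ e) (x e) * Real.exp (2 * τ e ^ 2) := by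
        refine Finset.sum_le_sum fun e _ => ?_
        have h3 : 0 ≤ ω e * ch (τ e) (x e) :=
          mul_nonneg (hω e) (add_nonneg (Real.exp_pos _).le (Real.exp_pos _).le)
        have hexp : |τ e| * δ + 50 / 9 * τ e ^ 2 * ∑ k ∈ range K, (1 / 4 : ℝ) ^ (k + 1)
            ≤ 2 * τ e ^ 2 := by
          have hG := geom_quarter K
          have h4 : 50 / 9 * τ e ^ 2 * ∑ k ∈ range K, (1 / 4 : ℝ) ^ (k + 1)
              ≤ 50 / 9 * τ e ^ 2 * (1 / 3) :=
            mul_le_mul_of_nonneg_left hG (by positivity)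
          by_cases h0 : τ e = 0
          · simp only [h0]
            simp
          · have h5 := hδ e h0
            have h6 : |τ e| * δ ≤ |τ e| * (4 / 27 * |τ e|) :=
              mul_le_mul_of_nonneg_left h5 (abs_nonneg _)
            have h7 : |τ e| * |τ e| = τ e ^ 2 := by
              rw [abs_mul_abs_self]; ring
            nlinarith
        have h8 : Real.exp (|τ e| * δ) * Real.exp (50 / 9 * τ e ^ 2 * ∑ k ∈ range K, (1 / 4 : ℝ) ^ (k + 1))
            ≤ Real.exp (2 * τ e ^ 2) := by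
          rw [← Real.exp_add]
          exact Real.exp_le_exp.mpr hexp
        simp only [ω']
        calc ω e * Real.exp (|τ e| * δ) * ch (τ e) (x e)
              * Real.exp (50 / 9 * τ e ^ 2 * ∑ k ∈ range K, (1 / 4 : ℝ) ^ (k + 1))
            = ω e * ch (τ e) (x e) * (Real.exp (|τ e| * δ)
              * Real.exp (50 / 9 * τ e ^ 2 * ∑ k ∈ range K, (1 / 4 : ℝ) ^ (k + 1))) := by ring
          _ ≤ _ := mul_le_mul_of_nonneg_left h8 h3

end FinRows

/-- Weighted rounding with fractional start and an arbitrary finite index set of rows. -/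
theorem krw_gen {ι J : Type*} [DecidableEq ι] [Fintype J] (B : Finset ι)
    (l : ι → J → ℝ) (hl : ∀ v, ∑ e, l v e ^ 2 ≤ 1) (y : ι → ℝ) (hy : ∀ v ∈ B, 0 ≤ y v ∧ y v ≤ 1)
    (τ ω x : J → ℝ) (hω : ∀ e, 0 ≤ ω e) :
    ∃ L ⊆ B, ∑ e, ω e * ch (τ e) (x e + ∑ v ∈ B, ((if v ∈ L then 1 else 0) - y v) * l v e)
      ≤ ∑ e, ω e * ch (τ e) (x e) * Real.exp (2 * τ e ^ 2) := by
  classical
  let f : Fin (Fintype.card J) ≃ J := (Fintype.equivFin J).symm
  have hl' : ∀ v, ∑ e, (fun v e => l v (f e)) v e ^ 2 ≤ 1 := by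
    intro v
    have := hl v
    rw [← Equiv.sum_comp f] at this
    exact this
  obtain ⟨L, hLB, hL⟩ := krw_fin B (fun v e => l v (f e)) hl' y hy (fun e => τ (f e))
    (fun e => ω (f e)) (fun e => x (f e)) (fun e => hω (f e))
  refine ⟨L, hLB, ?_⟩
  rw [← Equiv.sum_comp f, ← Equiv.sum_comp f (fun e => ω e * ch (τ e) (x e) * Real.exp (2 * τ e ^ 2))]
  exact hL

end Vale.Agent.P262H
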