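import Vale.Agent.P262N.Defs

/-! # Elementary facts on `ch`, `Gf`, `Dl`, `hh`. -/

open Finset

namespace Vale.Agent.P262H

lemma ch_pos (t w : ℝ) : 0 < ch t w := by unfold ch; positivity

lemma two_le_ch (t w : ℝ) : 2 ≤ ch t w := by
  unfold ch
  have h1 := Real.add_one_le_exp (t * w)
  have h2 := Real.add_one_le_exp (-(t * w))
  linarith

/-- `ch` after a shift. -/
lemma ch_add_le {t : ℝ} (ht : 0 ≤ t) (x s : ℝ) : ch t (x + s) ≤ ch t x * Real.exp (t * |s|) := by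
  unfold ch
  have h1 : t * s ≤ t * |s| := mul_le_mul_of_nonneg_left (le_abs_self s) ht
  have h2 : -(t * s) ≤ t * |s| := by
    have := mul_le_mul_of_nonneg_left (neg_le_abs s) ht
    linarith
  have e1 : Real.exp (t * (x + s)) = Real.exp (t * x) * Real.exp (t * s) := by
    rw [← Real.exp_add]; congr 1; ring
  have e2 : Real.exp (-(t * (x + s))) = Real.exp (-(t * x)) * Real.exp (-(t * s)) := by
    rw [← Real.exp_add]; congr 1; ring
  rw [e1, e2, add_mul]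
  apply add_le_add
  · exact mul_le_mul_of_nonneg_left (Real.exp_le_exp.mpr h1) (Real.exp_pos _).le
  · exact mul_le_mul_of_nonneg_left (Real.exp_le_exp.mpr h2) (Real.exp_pos _).le

lemma ch_neg (t w : ℝ) : ch t (-w) = ch t w := by
  unfold ch
  have e : t * -w = -(t * w) := by ring
  rw [e, neg_neg, add_comm]

/-- Midpoint convexity of `ch`. -/
lemma ch_mid (t a b : ℝ) : ch t ((a + b) / 2) ≤ (ch t a + ch t b) / 2 := by
  unfold ch
  have key : ∀ A B : ℝ, Real.exp ((A + B) / 2) ≤ (Real.exp A + Real.exp B) / 2 := by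
    intro A B
    have h := convexOn_exp.2 (Set.mem_univ A) (Set.mem_univ B) (by norm_num : (0 : ℝ) ≤ 1 / 2)
      (by norm_num : (0 : ℝ) ≤ 1 / 2) (by norm_num)
    simp only [smul_eq_mul] at h
    have e : 1 / 2 * A + 1 / 2 * B = (A + B) / 2 := by ring
    rw [e] at h
    linarith
  have h1 := key (t * a) (t * b)
  have h2 := key (-(t * a)) (-(t * b))
  have e1 : t * ((a + b) / 2) = (t * a + t * b) / 2 := by ring
  have e2 : -(t * ((a + b) / 2)) = (-(t * a) + -(t * b)) / 2 := by ring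
  rw [e1]
  rw [e1] at e2
  rw [e2]
  linarith

lemma ch_eq (t w : ℝ) : ch t w = 2 * Real.cosh (t * w) := by
  unfold ch
  rw [Real.cosh_eq]
  ring

lemma ch_mono_abs {t : ℝ} (ht : 0 ≤ t) {w s : ℝ} (h : |w| ≤ s) : ch t w ≤ ch t s := by
  rw [ch_eq, ch_eq]
  apply mul_le_mul_of_nonneg_left _ (by norm_num)
  rw [Real.cosh_le_cosh, abs_mul, abs_mul, abs_of_nonneg ht]
  exact mul_le_mul_of_nonneg_left (h.trans (le_abs_self s)) ht

/-- A large value of the row gives a large value of `ch`. -/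
lemma exp_abs_le_ch {t : ℝ} (ht : 0 ≤ t) (w : ℝ) : Real.exp (t * |w|) ≤ ch t w := by
  unfold ch
  rcases abs_cases w with ⟨h, _⟩ | ⟨h, _⟩
  · rw [h]
    linarith [Real.exp_pos (-(t * w))]
  · rw [h]
    have e : t * -w = -(t * w) := by ring
    rw [e]
    linarith [Real.exp_pos (t * w)]

/-- The quadratic lower bound of `ch`. -/
lemma sq_le_ch (t w : ℝ) : (t * w) ^ 2 ≤ ch t w := by
  have h0 : ch t w = ch 1 (t * w) := by
    unfold ch
    simp
  rw [h0]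
  set u := t * w
  have h1 := exp_abs_le_ch (t := 1) (by norm_num) u
  rw [one_mul] at h1
  refine le_trans ?_ h1
  have hu := abs_nonneg u
  have h2 := Real.quadratic_le_exp_of_nonneg (show 0 ≤ |u| / 2 by positivity)
  have h3 : |u| ≤ 1 + |u| / 2 + (|u| / 2) ^ 2 / 2 := by
    nlinarith [sq_nonneg (|u| - 2)]
  have h4 : |u| ≤ Real.exp (|u| / 2) := h3.trans h2
  have e : Real.exp |u| = Real.exp (|u| / 2) ^ 2 := by
    rw [← Real.exp_nat_mul]
    congr 1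
    push_cast
    ring
  rw [e, ← sq_abs u]
  exact pow_le_pow_left₀ hu h4 2

variable {d : ℕ} (P : Par d)

lemma Par.e_pos : 0 < P.e := by
  unfold Par.e
  have := P.σ_pos
  have := P.d_pos
  positivity

lemma Par.e_le_σ : P.e ≤ P.σ := by
  unfold Par.e
  have h1 := P.σ_pos
  have h2 := P.d_ge
  apply div_le_self h1.le
  nlinarith

/-- `e` is far below `γ`. -/
lemma Par.two_e_le_γ : 2 * P.e ≤ P.γ := by
  have h1 := P.e_le_σ
  have h2 := P.γ_ge_σ
  have h3 := P.hσ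
  nlinarith

lemma Par.Cs_pos : 0 < P.Cs := by
  unfold Par.Cs
  have := P.σ_pos
  linarith

lemma Par.D0_pos : 0 < P.D0 := by
  unfold Par.D0
  have := P.σ_pos
  linarith

lemma Par.gf_arg_ge (x : ℝ) : 1 ≤ 2 * min (max x (P.e / 2)) P.γ / P.e := by
  have he := P.e_pos
  have h2 := P.two_e_le_γ
  rw [le_div_iff₀ he]
  have h3 : P.e / 2 ≤ min (max x (P.e / 2)) P.γ :=
    le_min (le_max_right _ _) (by linarith)
  linarith

lemma Par.Gf_nonneg (x : ℝ) : 0 ≤ P.Gf x :=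
  Real.logb_nonneg (by norm_num) (P.gf_arg_ge x)

lemma Par.Gf_le (x : ℝ) : P.Gf x ≤ P.Lmax := by
  unfold Par.Gf Par.Lmax
  have he := P.e_pos
  apply Real.logb_le_logb_of_le (by norm_num) (by linarith [P.gf_arg_ge x])
  apply div_le_div_of_nonneg_right _ he.le
  have := min_le_right (max x (P.e / 2)) P.γ
  linarith

lemma Par.Gf_mono {x y : ℝ} (h : x ≤ y) : P.Gf x ≤ P.Gf y := by
  unfold Par.Gf
  have he := P.e_pos
  apply Real.logb_le_logb_of_le (by norm_num) (by linarith [P.gf_arg_ge x])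
  apply div_le_div_of_nonneg_right _ he.le
  have h2 : min (max x (P.e / 2)) P.γ ≤ min (max y (P.e / 2)) P.γ :=
    min_le_min_right _ (max_le_max_right _ h)
  linarith

/-- One zone level costs one unit of `Gf`. -/
lemma Par.Gf_step {x : ℝ} (h1 : P.e ≤ x) (h2 : x < P.γ) : P.Gf (x / 2) + 1 = P.Gf x := by
  unfold Par.Gf
  have he := P.e_pos
  have hx : 0 < x := by linarith
  have e1 : min (max (x / 2) (P.e / 2)) P.γ = x / 2 := by
    rw [max_eq_left (by linarith), min_eq_left (by linarith)]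
  have e2 : min (max x (P.e / 2)) P.γ = x := by
    rw [max_eq_left (by linarith), min_eq_left h2.le]
  rw [e1, e2]
  have e3 : 2 * (x / 2) / P.e = x / P.e := by ring
  have e4 : 2 * x / P.e = 2 * (x / P.e) := by ring
  rw [e3, e4, Real.logb_mul (by norm_num) (by positivity), Real.logb_self_eq_one (by norm_num)]
  ring

lemma Par.Dl_nonneg {x : ℝ} : 0 ≤ P.Dl x := by
  unfold Par.Dl
  have h1 := P.D0_pos
  have h2 := P.Cs_pos
  have h3 : 0 ≤ min 1 (√(√(x / P.e))) := le_min zero_le_one (Real.sqrt_nonneg _)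
  have h4 : 0 ≤ (if P.e ≤ x then 2 * P.Cs else 0) := by
    split_ifs
    · linarith
    · exact le_rfl
  have h5 := mul_nonneg h1.le h3
  linarith

lemma Par.Dl_le (x : ℝ) : P.Dl x ≤ P.D0 + 2 * P.Cs := by
  unfold Par.Dl
  have h1 := P.D0_pos
  have h2 := P.Cs_pos
  have h3 : min 1 (√(√(x / P.e))) ≤ 1 := min_le_left _ _
  have h4 : (if P.e ≤ x then 2 * P.Cs else 0) ≤ 2 * P.Cs := by
    split_ifs
    · exact le_rfl
    · linarith
  nlinarith

/-- `(1/2)^(1/4)` is at most `0.841`. -/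
lemma fourth_half_le : √(√(1 / 2 : ℝ)) ≤ 0.841 := by
  apply Real.sqrt_le_iff.mpr
  refine ⟨by norm_num, ?_⟩
  apply Real.sqrt_le_iff.mpr
  refine ⟨by norm_num, ?_⟩
  norm_num

/-- Below the threshold: a fixed fraction of the budget is released at each level. -/
lemma Par.Dl_tail {x : ℝ} (hx : 0 < x) (h : x < P.e) :
    P.Dl (x / 2) + (P.σ + 2 * P.Cs) * √(√(x / P.e)) ≤ P.Dl x := by
  have he := P.e_pos
  have hσ := P.σ_pos
  have hq : x / P.e ≤ 1 := (div_le_one he).mpr h.le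
  have hq0 : 0 ≤ x / P.e := by positivity
  have hs1 : √(√(x / P.e)) ≤ 1 := Real.sqrt_le_one.mpr (Real.sqrt_le_one.mpr hq)
  have hs0 : 0 ≤ √(√(x / P.e)) := Real.sqrt_nonneg _
  have e1 : x / 2 / P.e = x / P.e * (1 / 2) := by ring
  have e2 : √(√(x / 2 / P.e)) = √(√(x / P.e)) * √(√(1 / 2 : ℝ)) := by
    rw [e1, Real.sqrt_mul hq0, Real.sqrt_mul (Real.sqrt_nonneg _)]
  have hc := fourth_half_le
  have hc0 : 0 ≤ √(√(1 / 2 : ℝ)) := Real.sqrt_nonneg _
  have hs2 : √(√(x / 2 / P.e)) ≤ 1 := by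
    rw [e2]
    nlinarith
  unfold Par.Dl
  rw [if_neg (not_le.mpr h), if_neg (not_le.mpr (by linarith : x / 2 < P.e)),
    min_eq_right hs1, min_eq_right hs2, e2]
  unfold Par.D0 Par.Cs
  nlinarith [mul_nonneg hσ.le hs0]

/-- In the zone. -/
lemma Par.Dl_zone {x : ℝ} (h : P.e ≤ x) :
    P.Dl (x / 2) + (if x / 2 < P.e then 2 * P.Cs else 0) ≤ P.Dl x := by
  have he := P.e_pos
  have hD := P.D0_pos
  have hq : 1 ≤ x / P.e := (one_le_div he).mpr h
  have hs1 : 1 ≤ √(√(x / P.e)) := Real.one_le_sqrt.mpr (Real.one_le_sqrt.mpr hq)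
  have e0 : P.Dl x = P.D0 + 2 * P.Cs := by
    unfold Par.Dl
    rw [if_pos h, min_eq_left hs1, mul_one]
  rw [e0]
  split_ifs with h2
  · have h3 : P.Dl (x / 2) ≤ P.D0 := by
      unfold Par.Dl
      rw [if_neg (not_le.mpr h2), add_zero]
      have := min_le_left 1 (√(√(x / 2 / P.e)))
      nlinarith
    linarith
  · have := P.Dl_le (x / 2)
    linarith

lemma Par.Dl_tail_le {x : ℝ} (h : x < P.e) : P.Dl x ≤ P.D0 := by
  have hD := P.D0_pos
  unfold Par.Dl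
  rw [if_neg (not_le.mpr h), add_zero]
  have := min_le_left 1 (√(√(x / P.e)))
  nlinarith

variable {P} (Q : Ext P)

lemma Ext.xi_pos : 0 < Q.ξ := by
  unfold Ext.ξ xiOf
  have := Q.hη
  positivity

lemma Ext.hh_one_le (i : Fin d) (ℓ : ℕ) : 1 ≤ Q.hh i ℓ := by
  unfold Ext.hh
  have h1 : 1 ≤ Real.exp (Q.ξ * P.Gf (P.lam i ℓ)) :=
    Real.one_le_exp (mul_nonneg Q.xi_pos.le (P.Gf_nonneg _))
  have h2 : 1 ≤ Real.exp (Q.t * (P.Dl (P.lam i ℓ) + P.Om ℓ)) :=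
    Real.one_le_exp (mul_nonneg Q.ht.le (add_nonneg P.Dl_nonneg (P.Om_nonneg ℓ)))
  nlinarith

/-- Tail coordinate at a level (here `ρ = P.rho ℓ`). -/
lemma Ext.hh_tail {i : Fin d} {ℓ : ℕ} (h : P.lam i ℓ < P.e) :
    Q.hh i (ℓ + 1) * Real.exp (Q.t * ((P.σ + 2 * P.Cs) * P.ss i ℓ + 17 * P.σ * P.rho ℓ)) ≤ Q.hh i ℓ := by
  have hx : 0 < P.lam i ℓ := by
    unfold Par.lam
    have := Q.hΛ i
    positivity
  unfold Ext.hh
  rw [P.lam_succ]
  have h1 : P.Gf (P.lam i ℓ / 2) ≤ P.Gf (P.lam i ℓ) := P.Gf_mono (by linarith)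
  have h2 := P.Dl_tail hx h
  have h3 := P.Om_step ℓ
  have h4 := Q.xi_pos
  have ht := Q.ht
  rw [mul_assoc, ← Real.exp_add]
  apply mul_le_mul
  · exact Real.exp_le_exp.mpr (mul_le_mul_of_nonneg_left h1 h4.le)
  · apply Real.exp_le_exp.mpr
    rw [← mul_add]
    apply mul_le_mul_of_nonneg_left _ ht.le
    unfold Par.ss
    linarith
  · exact (Real.exp_pos _).le
  · exact (Real.exp_pos _).le

/-- Zone coordinate at a level. -/
lemma Ext.hh_zone {i : Fin d} {ℓ : ℕ} (h1 : P.e ≤ P.lam i ℓ) (h2 : P.lam i ℓ < P.γ) :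
    Q.hh i (ℓ + 1) * Real.exp (Q.t * P.entry i ℓ) * Real.exp Q.ξ * Real.exp (Q.t * (17 * P.σ * P.rho ℓ))
      ≤ Q.hh i ℓ := by
  have h3 := P.Gf_step h1 h2
  have h4 := P.Dl_zone h1
  have h5 := P.Om_step ℓ
  have ht := Q.ht
  have e1 : Real.exp (Q.ξ * P.Gf (P.lam i ℓ / 2)) * Real.exp Q.ξ = Real.exp (Q.ξ * P.Gf (P.lam i ℓ)) := by
    rw [← Real.exp_add, ← h3]
    congr 1
    ring
  unfold Ext.hh Par.entry
  rw [P.lam_succ]
  have e2 : Real.exp (Q.ξ * P.Gf (P.lam i ℓ / 2)) * Real.exp (Q.t * (P.Dl (P.lam i ℓ / 2) + P.Om (ℓ + 1)))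
        * Real.exp (Q.t * (if P.lam i ℓ / 2 < P.e then 2 * P.Cs else 0)) * Real.exp Q.ξ
        * Real.exp (Q.t * (17 * P.σ * P.rho ℓ))
      = (Real.exp (Q.ξ * P.Gf (P.lam i ℓ / 2)) * Real.exp Q.ξ)
        * Real.exp (Q.t * (P.Dl (P.lam i ℓ / 2) + P.Om (ℓ + 1)
          + (if P.lam i ℓ / 2 < P.e then 2 * P.Cs else 0) + 17 * P.σ * P.rho ℓ)) := by
    have e3 : Q.t * (P.Dl (P.lam i ℓ / 2) + P.Om (ℓ + 1)
          + (if P.lam i ℓ / 2 < P.e then 2 * P.Cs else 0) + 17 * P.σ * P.rho ℓ)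
        = Q.t * (P.Dl (P.lam i ℓ / 2) + P.Om (ℓ + 1))
          + Q.t * (if P.lam i ℓ / 2 < P.e then 2 * P.Cs else 0) + Q.t * (17 * P.σ * P.rho ℓ) := by ring
    rw [e3, Real.exp_add, Real.exp_add]
    ring
  rw [e2, e1]
  apply mul_le_mul_of_nonneg_left _ (Real.exp_pos _).le
  apply Real.exp_le_exp.mpr
  apply mul_le_mul_of_nonneg_left _ ht.le
  linarith

lemma Ext.hh_le_aux (i : Fin d) (ℓ : ℕ) {D : ℝ} (hD : P.Dl (P.lam i ℓ) ≤ D) :
    Q.hh i ℓ ≤ Real.exp (Q.ξ * P.Lmax) * Real.exp (Q.t * (D + P.OmM)) := by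
  unfold Ext.hh
  have h1 := P.Gf_le (P.lam i ℓ)
  have h2 : P.Om ℓ ≤ P.OmM := P.Om_le ℓ
  apply mul_le_mul
  · exact Real.exp_le_exp.mpr (mul_le_mul_of_nonneg_left h1 Q.xi_pos.le)
  · apply Real.exp_le_exp.mpr
    apply mul_le_mul_of_nonneg_left _ Q.ht.le
    linarith
  · exact (Real.exp_pos _).le
  · exact (Real.exp_pos _).le

/-- A coordinate frozen right now: its term is below `kc`. -/
lemma Ext.hh_le_kc (i : Fin d) (ℓ : ℕ) {w : ℝ} (hw : |w| ≤ P.σ) : Q.hh i ℓ * ch Q.t w ≤ Q.kc := by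
  have h1 := Q.hh_le_aux i ℓ (P.Dl_le (P.lam i ℓ))
  have h2 := ch_mono_abs Q.ht.le hw
  unfold Ext.kc Par.kc0
  have e : xiOf Q.t Q.η = Q.ξ := rfl
  rw [e]
  exact mul_le_mul h1 h2 (ch_pos _ _).le (by positivity)

/-- A tail coordinate with total variation at most `Cs` and `w` of size at most `Cs`. -/
lemma Ext.hh_root {i : Fin d} {ℓ : ℕ} (h : P.lam i ℓ < P.e) :
    Q.hh i ℓ * Real.exp (Q.t * P.Cs) * Real.exp (Q.t * P.Cs) * 2 ≤ Q.kc := by
  have h1 := Q.hh_le_aux i ℓ (P.Dl_tail_le h)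
  have h2 := two_le_ch Q.t P.σ
  unfold Ext.kc Par.kc0
  have e : xiOf Q.t Q.η = Q.ξ := rfl
  rw [e]
  have e2 : Real.exp (Q.ξ * P.Lmax) * Real.exp (Q.t * (P.D0 + P.OmM)) * Real.exp (Q.t * P.Cs) * Real.exp (Q.t * P.Cs)
      = Real.exp (Q.ξ * P.Lmax) * Real.exp (Q.t * (P.D0 + 2 * P.Cs + P.OmM)) := by
    rw [mul_assoc, mul_assoc, ← Real.exp_add, ← Real.exp_add]
    congr 2
    ring
  have h3 : Q.hh i ℓ * Real.exp (Q.t * P.Cs) * Real.exp (Q.t * P.Cs)
      ≤ Real.exp (Q.ξ * P.Lmax) * Real.exp (Q.t * (P.D0 + 2 * P.Cs + P.OmM)) := by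
    rw [← e2]
    have := Real.exp_pos (Q.t * P.Cs)
    apply mul_le_mul_of_nonneg_right _ this.le
    exact mul_le_mul_of_nonneg_right h1 this.le
  exact mul_le_mul h3 h2 (by norm_num) (by positivity)

lemma Ext.kc_pos : 0 < Q.kc := by
  unfold Ext.kc Par.kc0
  have := ch_pos Q.t P.σ
  positivity

end Vale.Agent.P262H
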