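import Vale.Agent.P262N.Cnt

/-! # Closure of the potential at the children of a split. -/

open Finset

namespace Vale.Agent.P262H

variable {d : ℕ} {P : Par d} {Q : Ext P}
variable {ι : Type*} [DecidableEq ι] {α : ι → Fin d → ℝ}
variable {ℓ : ℕ} {B : Finset ι} {p q a : Fin d → ℝ} {L : Finset ι}

/-- The scalar inequality behind every term of the potential. -/
lemma weight_step {t h h' T T' K K2 c c0 : ℝ} (ht : 0 ≤ t) (hh' : 0 ≤ h') (hc0 : 0 ≤ c0)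
    (h1 : h' * Real.exp (t * K) ≤ h) (h2 : T' + K2 ≤ T + K) (h3 : c ≤ c0 * Real.exp (t * K2)) :
    h' * Real.exp (t * T') * c ≤ h * Real.exp (t * T) * c0 := by
  have e1 : 0 ≤ h' * Real.exp (t * T') := by positivity
  calc h' * Real.exp (t * T') * c ≤ h' * Real.exp (t * T') * (c0 * Real.exp (t * K2)) :=
        mul_le_mul_of_nonneg_left h3 e1
    _ = h' * Real.exp (t * (T' + K2)) * c0 := by
        rw [mul_add, Real.exp_add]; ring
    _ ≤ h' * Real.exp (t * (T + K)) * c0 := by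
        apply mul_le_mul_of_nonneg_right _ hc0
        apply mul_le_mul_of_nonneg_left _ hh'
        exact Real.exp_le_exp.mpr (mul_le_mul_of_nonneg_left h2 ht)
    _ = (h' * Real.exp (t * K)) * Real.exp (t * T) * c0 := by
        rw [mul_add, Real.exp_add]; ring
    _ ≤ h * Real.exp (t * T) * c0 := by
        apply mul_le_mul_of_nonneg_right _ hc0
        exact mul_le_mul_of_nonneg_right h1 (Real.exp_pos _).le

lemma ch_shift {t : ℝ} (ht : 0 ≤ t) (x w s : ℝ) (K : ℝ) (hw : w = x + s) (hs : |s| ≤ K) :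
    ch t w ≤ ch t x * Real.exp (t * K) := by
  rw [hw]
  refine (ch_add_le ht x s).trans ?_
  apply mul_le_mul_of_nonneg_left _ (ch_pos _ _).le
  exact Real.exp_le_exp.mpr (mul_le_mul_of_nonneg_left hs ht)

lemma ch_le_self {t : ℝ} (ht : 0 ≤ t) (x K : ℝ) (hK : 0 ≤ K) : ch t x ≤ ch t x * Real.exp (t * K) := by
  have h1 : 1 ≤ Real.exp (t * K) := Real.one_le_exp (by positivity)
  nlinarith [ch_pos t x]

/-- The potential at the midpoint. -/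
lemma Ext.Pt_mid (Q : Ext P) (α : ι → Fin d → ℝ) (ℓ : ℕ) (B : Finset ι) (w w' : Fin d → ℝ) :
    Q.Pt α ℓ B (fun i => (w i + w' i) / 2) ≤ (Q.Pt α ℓ B w + Q.Pt α ℓ B w') / 2 := by
  unfold Ext.Pt
  rw [← Finset.sum_add_distrib, Finset.sum_div]
  refine Finset.sum_le_sum fun i _ => ?_
  split_ifs with h
  · linarith
  · have h1 := ch_mid Q.t (w i) (w' i)
    have h2 : 0 ≤ Q.hh i ℓ * Real.exp (Q.t * P.Tz α i ℓ B) := by
      have := Q.hh_one_le i ℓ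
      positivity
    have h3 := mul_le_mul_of_nonneg_left h1 h2
    have e : Q.hh i ℓ * Real.exp (Q.t * P.Tz α i ℓ B) * ((ch Q.t (w i) + ch Q.t (w' i)) / 2)
        = (Q.hh i ℓ * Real.exp (Q.t * P.Tz α i ℓ B) * ch Q.t (w i)
          + Q.hh i ℓ * Real.exp (Q.t * P.Tz α i ℓ B) * ch Q.t (w' i)) / 2 := by ring
    rw [e] at h3
    exact h3

/-- Data of a tail coordinate on a child. -/
lemma Ext.tail_data (Q : Ext P) {C : Finset ι} (hc : ∑ v ∈ C, P.cl α (ℓ + 1) v ≤ P.Cs) {i : Fin d}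
    (hi : P.lam i ℓ < P.e) :
    ∃ GE TE : ℝ, P.Gz α i (ℓ + 1) C = P.Gz α i ℓ C + GE ∧ P.Tz α i (ℓ + 1) C = P.Tz α i ℓ C + TE ∧
      |GE| ≤ TE ∧ TE ≤ P.Cs * P.ss i ℓ := by
  classical
  refine ⟨_, _, Q.Gz_step α i ℓ C, Q.Tz_step α i ℓ C, Finset.abs_sum_le_sum_abs _ _, ?_⟩
  refine (Q.TE_le hi C).trans ?_
  exact mul_le_mul_of_nonneg_right hc (Real.sqrt_nonneg _)

/-- Data of a zone coordinate on a child. -/
lemma zone_data (hα : ∀ v, ∑ i, α v i ^ 2 ≤ 1) {C : Finset ι}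
    (hc : ∑ v ∈ C, P.cl α (ℓ + 1) v ≤ P.Cs) (i : Fin d) :
    P.Tz α i (ℓ + 1) C + |P.Gz α i (ℓ + 1) C| ≤ P.entry i ℓ := by
  unfold Par.entry
  split_ifs with h
  · have h1 := Tz_le_cl P hα i (ℓ + 1) C
    have h2 := Gz_abs_le P α i (ℓ + 1) C
    linarith
  · obtain ⟨h1, h2⟩ := Gz_zero P α (not_lt.mp h) C
    rw [h1, h2]
    simp

lemma Par.entry_nonneg (P : Par d) (i : Fin d) (ℓ : ℕ) : 0 ≤ P.entry i ℓ := by
  unfold Par.entry
  split_ifs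
  · have := P.Cs_pos
    linarith
  · exact le_rfl

lemma Par.e_le_succ_of_cor (P : Par d) {i : Fin d} {ℓ : ℕ} (hi : P.γ ≤ P.lam i ℓ) :
    P.e ≤ P.lam i (ℓ + 1) := by
  rw [P.lam_succ]
  have := P.two_e_le_γ
  linarith

/-- The weight `hh` of the next level, nonnegative. -/
lemma Ext.hh_nonneg (Q : Ext P) (i : Fin d) (ℓ : ℕ) : 0 ≤ Q.hh i ℓ := by
  have := Q.hh_one_le i ℓ
  linarith

lemma Ext.t_nonneg (Q : Ext P) : 0 ≤ Q.t := Q.ht.le

/-- A coordinate corrected at the parent. -/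
lemma Ext.cor_term (Q : Ext P) {C : Finset ι} {i : Fin d} (hi : P.γ ≤ P.lam i ℓ) {w : ℝ} (hw : |w| ≤ P.σ) :
    (if P.γ ≤ P.lam i (ℓ + 1) then Q.kc
      else Q.hh i (ℓ + 1) * Real.exp (Q.t * P.Tz α i (ℓ + 1) C) * ch Q.t w) ≤ Q.kc := by
  split_ifs with h
  · exact le_rfl
  · obtain ⟨_, h2⟩ := Gz_zero P α (P.e_le_succ_of_cor hi) C
    rw [h2]
    simp only [mul_zero, Real.exp_zero, mul_one]
    exact Q.hh_le_kc i (ℓ + 1) hw

lemma not_cor_succ (P : Par d) {i : Fin d} {ℓ : ℕ} (hi : ¬ P.γ ≤ P.lam i ℓ) : ¬ P.γ ≤ P.lam i (ℓ + 1) := by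
  intro h
  exact hi (h.trans (P.lam_succ_le i ℓ))

/-- The tail bound in the form needed. -/
lemma Ext.hh_tail' (Q : Ext P) {i : Fin d} {ℓ : ℕ} (h : P.lam i ℓ < P.e) :
    Q.hh i (ℓ + 1) * Real.exp (Q.t * ((P.σ + 2 * P.Cs) * P.ss i ℓ + 17 * P.σ * P.rho ℓ)) ≤ Q.hh i ℓ :=
  Q.hh_tail h

/-- The zone bound in the form needed, with `K = entry`. -/
lemma Ext.hh_zone' (Q : Ext P) {i : Fin d} {ℓ : ℕ} (h1 : P.e ≤ P.lam i ℓ) (h2 : P.lam i ℓ < P.γ) :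
    Q.hh i (ℓ + 1) * Real.exp (Q.t * P.entry i ℓ) ≤ Q.hh i ℓ := by
  have h := Q.hh_zone h1 h2
  have h3 : 1 ≤ Real.exp Q.ξ := Real.one_le_exp Q.xi_pos.le
  have hr : 0 ≤ P.rho ℓ := P.rho_nonneg ℓ
  have hσ := P.σ_pos
  have h4 : 1 ≤ Real.exp (Q.t * (17 * P.σ * P.rho ℓ)) :=
    Real.one_le_exp (mul_nonneg Q.t_nonneg (by positivity))
  have h5 : 0 ≤ Q.hh i (ℓ + 1) * Real.exp (Q.t * P.entry i ℓ) :=
    mul_nonneg (Q.hh_nonneg _ _) (Real.exp_pos _).le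
  calc Q.hh i (ℓ + 1) * Real.exp (Q.t * P.entry i ℓ)
      ≤ Q.hh i (ℓ + 1) * Real.exp (Q.t * P.entry i ℓ) * Real.exp Q.ξ := le_mul_of_one_le_right h5 h3
    _ ≤ Q.hh i (ℓ + 1) * Real.exp (Q.t * P.entry i ℓ) * Real.exp Q.ξ * Real.exp (Q.t * (17 * P.σ * P.rho ℓ)) :=
        le_mul_of_one_le_right (by positivity) h4
    _ ≤ _ := h

variable (hS : Q.Sp α ℓ B p q a L) (hα : ∀ v, ∑ i, α v i ^ 2 ≤ 1) (hI : Q.Inv α ℓ B p q)
include hS hα hI

/-- Count on the two children. -/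
lemma Ext.Sp.cntL : ∑ v ∈ L, P.cl α (ℓ + 1) v ≤ P.Cs := hS.cnt_left hα hI.hE hI.hCnt

lemma Ext.Sp.cntR : ∑ v ∈ B \ L, P.cl α (ℓ + 1) v ≤ P.Cs := hS.cnt_right hα hI.hE hI.hCnt

/-- Left child, left end. -/
theorem Ext.Sp.pot_LL : Q.Pt α (ℓ + 1) L p ≤ Q.Pt α ℓ B p := by
  have hcL := hS.cntL hα hI
  have ht := Q.t_nonneg
  unfold Ext.Pt
  refine Finset.sum_le_sum fun i _ => ?_
  by_cases hc : P.γ ≤ P.lam i ℓ
  · rw [if_pos hc]
    exact Q.cor_term hc (hI.hC i hc).1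
  · rw [if_neg hc, if_neg (not_cor_succ P hc)]
    by_cases ht' : P.lam i ℓ < P.e
    · obtain ⟨GE, TE, h1, h2, h3, h4⟩ := Q.tail_data hcL ht'
      have hTR := Tz_nonneg P α i ℓ (B \ L)
      have hTB := Tz_add P α i ℓ hS.hLB
      have hss : 0 ≤ P.ss i ℓ := Real.sqrt_nonneg _
      have hσ := P.σ_pos
      have hCs := P.Cs_pos
      have hr := P.rho_nonneg ℓ
      refine weight_step (K := (P.σ + 2 * P.Cs) * P.ss i ℓ + 17 * P.σ * P.rho ℓ) (K2 := 0) ht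
        (Q.hh_nonneg _ _) (ch_pos _ _).le (Q.hh_tail ht') ?_ ?_
      · have h5 : 0 ≤ P.σ * P.ss i ℓ := by positivity
        have h6 : 0 ≤ P.σ * P.rho ℓ := by positivity
        have h7 : 0 ≤ P.Cs * P.ss i ℓ := by positivity
        rw [h2, hTB]
        nlinarith
      · simp
    · have hz := not_lt.mp ht'
      have hz2 := not_le.mp hc
      obtain ⟨_, hT0⟩ := Gz_zero P α hz B
      rw [hT0]
      have hd := zone_data hα hcL i
      have hG := abs_nonneg (P.Gz α i (ℓ + 1) L)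
      refine weight_step (K := P.entry i ℓ) (K2 := 0) ht (Q.hh_nonneg _ _) (ch_pos _ _).le
        (Q.hh_zone' hz hz2) ?_ ?_
      · linarith
      · simp

/-- Right child, right end. -/
theorem Ext.Sp.pot_RR :
    Q.Pt α (ℓ + 1) (B \ L) (fun i => q i - P.Gz α i (ℓ + 1) (B \ L))
      ≤ Q.Pt α ℓ B (fun i => q i - P.Gz α i ℓ B) := by
  have hcR := hS.cntR hα hI
  have ht := Q.t_nonneg
  unfold Ext.Pt
  refine Finset.sum_le_sum fun i _ => ?_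
  by_cases hc : P.γ ≤ P.lam i ℓ
  · rw [if_pos hc]
    obtain ⟨h1, _⟩ := Gz_zero P α (P.e_le_succ_of_cor hc) (B \ L)
    refine Q.cor_term hc ?_
    beta_reduce
    rw [h1, sub_zero]
    exact (hI.hC i hc).2
  · rw [if_neg hc, if_neg (not_cor_succ P hc)]
    by_cases ht' : P.lam i ℓ < P.e
    · obtain ⟨GE, TE, h1, h2, h3, h4⟩ := Q.tail_data hcR ht'
      have hTB := Tz_add P α i ℓ hS.hLB
      have hGB := Gz_add P α i ℓ hS.hLB
      have hGL := Gz_abs_le P α i ℓ L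
      have hss : 0 ≤ P.ss i ℓ := Real.sqrt_nonneg _
      have hσ := P.σ_pos
      have hCs := P.Cs_pos
      have hr := P.rho_nonneg ℓ
      refine weight_step (K := (P.σ + 2 * P.Cs) * P.ss i ℓ + 17 * P.σ * P.rho ℓ)
        (K2 := P.Tz α i ℓ L + TE) ht (Q.hh_nonneg _ _) (ch_pos _ _).le (Q.hh_tail ht') ?_ ?_
      · have h5 : 0 ≤ P.σ * P.ss i ℓ := by positivity
        have h6 : 0 ≤ P.σ * P.rho ℓ := by positivity
        rw [h2, hTB]
        nlinarith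
      · refine ch_shift ht _ _ (P.Gz α i ℓ L - GE) _ ?_ ?_
        · beta_reduce
          rw [h1, hGB]
          ring
        · have := abs_sub (P.Gz α i ℓ L) GE
          linarith
    · have hz := not_lt.mp ht'
      have hz2 := not_le.mp hc
      obtain ⟨hG0, hT0⟩ := Gz_zero P α hz B
      beta_reduce
      rw [hT0, hG0, sub_zero]
      have hd := zone_data hα hcR i
      refine weight_step (K := P.entry i ℓ) (K2 := |P.Gz α i (ℓ + 1) (B \ L)|) ht (Q.hh_nonneg _ _)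
        (ch_pos _ _).le (Q.hh_zone' hz hz2) (by linarith) ?_
      refine ch_shift ht _ _ (-P.Gz α i (ℓ + 1) (B \ L)) _ (by ring) ?_
      rw [abs_neg]

/-- The terms of the potential at the two new ends: a tail coordinate, left child. -/
lemma Ext.Sp.tail_LR {i : Fin d} (ht' : P.lam i ℓ < P.e) :
    Q.hh i (ℓ + 1) * Real.exp (Q.t * P.Tz α i (ℓ + 1) L) *
        ch Q.t (p i + ∑ v ∈ L, α v i - P.Gz α i (ℓ + 1) L)
      ≤ Q.hh i ℓ * Real.exp (Q.t * P.Tz α i ℓ B) * ch Q.t ((p i + (q i - P.Gz α i ℓ B)) / 2) := by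
  have hcL := hS.cntL hα hI
  have ht := Q.t_nonneg
  obtain ⟨GE, TE, h1, h2, h3, h4⟩ := Q.tail_data hcL ht'
  obtain ⟨δ, hδ1, hδ2⟩ := hS.mid_tail hα hI.hE hI.hCnt ht' (hI.hq i)
  have hTR := Tz_nonneg P α i ℓ (B \ L)
  have hTB := Tz_add P α i ℓ hS.hLB
  have hss : 0 ≤ P.ss i ℓ := Real.sqrt_nonneg _
  have hσ := P.σ_pos
  have hCs := P.Cs_pos
  have hr := P.rho_nonneg ℓ
  refine weight_step (K := (P.σ + 2 * P.Cs) * P.ss i ℓ + 17 * P.σ * P.rho ℓ)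
    (K2 := |δ| + TE) ht (Q.hh_nonneg _ _) (ch_pos _ _).le (Q.hh_tail ht') ?_ ?_
  · rw [h2, hTB]
    nlinarith
  · refine ch_shift ht _ _ (δ - GE) _ ?_ ?_
    · rw [h1]
      linarith
    · have := abs_sub δ GE
      linarith

/-- A tail coordinate, right child. -/
lemma Ext.Sp.tail_RL {i : Fin d} (ht' : P.lam i ℓ < P.e) :
    Q.hh i (ℓ + 1) * Real.exp (Q.t * P.Tz α i (ℓ + 1) (B \ L)) * ch Q.t (p i + ∑ v ∈ L, α v i)
      ≤ Q.hh i ℓ * Real.exp (Q.t * P.Tz α i ℓ B) * ch Q.t ((p i + (q i - P.Gz α i ℓ B)) / 2) := by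
  have hcR := hS.cntR hα hI
  have ht := Q.t_nonneg
  obtain ⟨GE, TE, h1, h2, h3, h4⟩ := Q.tail_data hcR ht'
  obtain ⟨δ, hδ1, hδ2⟩ := hS.mid_tail hα hI.hE hI.hCnt ht' (hI.hq i)
  have hTB := Tz_add P α i ℓ hS.hLB
  have hGL := Gz_abs_le P α i ℓ L
  have hss : 0 ≤ P.ss i ℓ := Real.sqrt_nonneg _
  have hσ := P.σ_pos
  have hCs := P.Cs_pos
  have hr := P.rho_nonneg ℓ
  have hTE0 : 0 ≤ TE := (abs_nonneg _).trans h3
  refine weight_step (K := (P.σ + 2 * P.Cs) * P.ss i ℓ + 17 * P.σ * P.rho ℓ)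
    (K2 := |δ| + P.Tz α i ℓ L) ht (Q.hh_nonneg _ _) (ch_pos _ _).le (Q.hh_tail ht') ?_ ?_
  · rw [h2, hTB]
    nlinarith
  · refine ch_shift ht _ _ (δ + P.Gz α i ℓ L) _ ?_ ?_
    · linarith
    · have := abs_add_le δ (P.Gz α i ℓ L)
      linarith

/-- Zone coordinate: the weight of the soft row dominates the two new ends. -/
lemma Ext.Sp.zone_LR {i : Fin d} :
    Q.hh i (ℓ + 1) * Real.exp (Q.t * P.Tz α i (ℓ + 1) L) *
        ch Q.t (p i + ∑ v ∈ L, α v i - P.Gz α i (ℓ + 1) L)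
      ≤ Q.hh i (ℓ + 1) * Real.exp (Q.t * P.entry i ℓ) * ch Q.t (p i + ∑ v ∈ L, α v i) := by
  have hcL := hS.cntL hα hI
  have ht := Q.t_nonneg
  have hd := zone_data hα hcL i
  have h1 := ch_shift ht (p i + ∑ v ∈ L, α v i) (p i + ∑ v ∈ L, α v i - P.Gz α i (ℓ + 1) L)
    (-P.Gz α i (ℓ + 1) L) |P.Gz α i (ℓ + 1) L| (by ring) (by rw [abs_neg])
  have h0 : 0 ≤ Q.hh i (ℓ + 1) := Q.hh_nonneg _ _
  have e2 : Real.exp (Q.t * P.Tz α i (ℓ + 1) L) * Real.exp (Q.t * |P.Gz α i (ℓ + 1) L|)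
      ≤ Real.exp (Q.t * P.entry i ℓ) := by
    rw [← Real.exp_add, ← mul_add]
    exact Real.exp_le_exp.mpr (mul_le_mul_of_nonneg_left hd ht)
  have hc := ch_pos Q.t (p i + ∑ v ∈ L, α v i)
  calc _ ≤ Q.hh i (ℓ + 1) * Real.exp (Q.t * P.Tz α i (ℓ + 1) L) *
        (ch Q.t (p i + ∑ v ∈ L, α v i) * Real.exp (Q.t * |P.Gz α i (ℓ + 1) L|)) :=
        mul_le_mul_of_nonneg_left h1 (by positivity)
    _ = Q.hh i (ℓ + 1) * (Real.exp (Q.t * P.Tz α i (ℓ + 1) L) * Real.exp (Q.t * |P.Gz α i (ℓ + 1) L|))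
        * ch Q.t (p i + ∑ v ∈ L, α v i) := by ring
    _ ≤ _ := by
        apply mul_le_mul_of_nonneg_right _ hc.le
        exact mul_le_mul_of_nonneg_left e2 h0

lemma Ext.Sp.zone_RL {i : Fin d} :
    Q.hh i (ℓ + 1) * Real.exp (Q.t * P.Tz α i (ℓ + 1) (B \ L)) * ch Q.t (p i + ∑ v ∈ L, α v i)
      ≤ Q.hh i (ℓ + 1) * Real.exp (Q.t * P.entry i ℓ) * ch Q.t (p i + ∑ v ∈ L, α v i) := by
  have hcR := hS.cntR hα hI
  have ht := Q.t_nonneg
  have hd := zone_data hα hcR i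
  have hG := abs_nonneg (P.Gz α i (ℓ + 1) (B \ L))
  apply mul_le_mul_of_nonneg_right _ (ch_pos _ _).le
  apply mul_le_mul_of_nonneg_left _ (Q.hh_nonneg _ _)
  apply Real.exp_le_exp.mpr
  exact mul_le_mul_of_nonneg_left (by linarith) ht

/-- Summing the soft rows. -/
lemma Ext.Sp.soft_sum :
    (∑ i, if P.e ≤ P.lam i ℓ ∧ P.lam i ℓ < P.γ then
        Q.hh i (ℓ + 1) * Real.exp (Q.t * P.entry i ℓ) * ch Q.t (p i + ∑ v ∈ L, α v i) else 0)
      ≤ ∑ i, if P.e ≤ P.lam i ℓ ∧ P.lam i ℓ < P.γ then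
          Q.hh i ℓ * Real.exp (Q.t * P.Tz α i ℓ B) * ch Q.t ((p i + (q i - P.Gz α i ℓ B)) / 2) else 0 := by
  have ht := Q.t_nonneg
  have h1 : ∀ i, (if P.e ≤ P.lam i ℓ ∧ P.lam i ℓ < P.γ then
        Q.hh i (ℓ + 1) * Real.exp (Q.t * P.entry i ℓ) * ch Q.t (p i + ∑ v ∈ L, α v i) else 0)
      = (if P.e ≤ P.lam i ℓ ∧ P.lam i ℓ < P.γ then
        Q.hh i (ℓ + 1) * Real.exp (Q.t * P.entry i ℓ) *
          ch Q.t ((p i + q i) / 2 + ∑ v ∈ B, sh α a v * α v i + ∑ v ∈ B, ee α a L v * α v i) else 0) := by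
    intro i
    rw [hS.mid_zone (i := i) (hI.hq i)]
  simp only [h1]
  refine hS.Ns.trans ?_
  refine Finset.sum_le_sum fun i _ => ?_
  split_ifs with h
  · obtain ⟨hz, hz2⟩ := h
    obtain ⟨hG0, hT0⟩ := Gz_zero P α hz B
    rw [hT0, hG0, sub_zero]
    simp only [mul_zero, Real.exp_zero, mul_one]
    have hsp := hS.spill_zone hI.hE hz2
    have h2 := ch_shift ht ((p i + q i) / 2) ((p i + q i) / 2 + ∑ v ∈ B, sh α a v * α v i)
      (∑ v ∈ B, sh α a v * α v i) (17 * P.σ * P.rho ℓ) rfl hsp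
    have h3 := Q.hh_zone hz hz2
    have e : (p i + (q i - 0)) / 2 = (p i + q i) / 2 := by ring
    have hc := ch_pos Q.t ((p i + q i) / 2)
    have hpos : 0 ≤ Q.hh i (ℓ + 1) * Real.exp (Q.t * P.entry i ℓ) :=
      mul_nonneg (Q.hh_nonneg _ _) (Real.exp_pos _).le
    calc _ ≤ Q.hh i (ℓ + 1) * Real.exp (Q.t * P.entry i ℓ) *
          (ch Q.t ((p i + q i) / 2) * Real.exp (Q.t * (17 * P.σ * P.rho ℓ))) * Real.exp Q.ξ := by
          apply mul_le_mul_of_nonneg_right _ (Real.exp_pos _).le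
          exact mul_le_mul_of_nonneg_left h2 hpos
      _ = Q.hh i (ℓ + 1) * Real.exp (Q.t * P.entry i ℓ) * Real.exp Q.ξ *
          Real.exp (Q.t * (17 * P.σ * P.rho ℓ)) * ch Q.t ((p i + q i) / 2) := by ring
      _ ≤ _ := mul_le_mul_of_nonneg_right h3 hc.le
  · exact le_rfl

/-- The general summation: the frozen terms of a child at a new end. -/
lemma Ext.Sp.sum_new {A : Fin d → ℝ}
    (hC : ∀ i, P.γ ≤ P.lam i ℓ → A i ≤ Q.kc)
    (hT : ∀ i, P.lam i ℓ < P.e →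
      A i ≤ Q.hh i ℓ * Real.exp (Q.t * P.Tz α i ℓ B) * ch Q.t ((p i + (q i - P.Gz α i ℓ B)) / 2))
    (hZ : ∀ i, P.e ≤ P.lam i ℓ → P.lam i ℓ < P.γ →
      A i ≤ Q.hh i (ℓ + 1) * Real.exp (Q.t * P.entry i ℓ) * ch Q.t (p i + ∑ v ∈ L, α v i)) :
    ∑ i, A i ≤ Q.Pt α ℓ B (fun i => (p i + (q i - P.Gz α i ℓ B)) / 2) := by
  have hs := hS.soft_sum hα hI
  have e2 := P.two_e_le_γ
  have he := P.e_pos
  have hsplit : ∀ i, A i ≤ (if P.e ≤ P.lam i ℓ ∧ P.lam i ℓ < P.γ then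
        Q.hh i (ℓ + 1) * Real.exp (Q.t * P.entry i ℓ) * ch Q.t (p i + ∑ v ∈ L, α v i) else 0)
      + (if P.e ≤ P.lam i ℓ ∧ P.lam i ℓ < P.γ then 0 else
        if P.γ ≤ P.lam i ℓ then Q.kc
        else Q.hh i ℓ * Real.exp (Q.t * P.Tz α i ℓ B) * ch Q.t ((p i + (q i - P.Gz α i ℓ B)) / 2)) := by
    intro i
    by_cases hz : P.e ≤ P.lam i ℓ ∧ P.lam i ℓ < P.γ
    · rw [if_pos hz, if_pos hz, add_zero]
      exact hZ i hz.1 hz.2
    · rw [if_neg hz, if_neg hz, zero_add]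
      by_cases hc : P.γ ≤ P.lam i ℓ
      · rw [if_pos hc]
        exact hC i hc
      · rw [if_neg hc]
        apply hT i
        by_contra h3
        exact hz ⟨not_lt.mp h3, not_le.mp hc⟩
  refine (Finset.sum_le_sum fun i _ => hsplit i).trans ?_
  rw [Finset.sum_add_distrib]
  refine (add_le_add_left hs _).trans ?_
  unfold Ext.Pt
  rw [← Finset.sum_add_distrib]
  refine Finset.sum_le_sum fun i _ => ?_
  by_cases hz : P.e ≤ P.lam i ℓ ∧ P.lam i ℓ < P.γ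
  · rw [if_pos hz, if_pos hz, add_zero, if_neg (not_le.mpr hz.2)]
  · rw [if_neg hz, if_neg hz, zero_add]

/-- Left child, right end. -/
theorem Ext.Sp.pot_LR :
    Q.Pt α (ℓ + 1) L (fun i => p i + ∑ v ∈ L, α v i - P.Gz α i (ℓ + 1) L)
      ≤ Q.Pt α ℓ B (fun i => (p i + (q i - P.Gz α i ℓ B)) / 2) := by
  unfold Ext.Pt
  refine hS.sum_new hα hI ?_ ?_ ?_
  · intro i hc
    obtain ⟨h1, _⟩ := Gz_zero P α (P.e_le_succ_of_cor hc) L
    refine Q.cor_term hc ?_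
    beta_reduce
    rw [h1, sub_zero]
    exact hS.mid_corr hc (hI.hq i)
  · intro i hi
    have hc : ¬ P.γ ≤ P.lam i ℓ := by
      have := P.two_e_le_γ
      have he := P.e_pos
      intro h
      linarith
    rw [if_neg (not_cor_succ P hc)]
    exact hS.tail_LR hα hI hi
  · intro i _ hz2
    rw [if_neg (not_cor_succ P (not_le.mpr hz2))]
    exact hS.zone_LR hα hI

/-- Right child, left end. -/
theorem Ext.Sp.pot_RL :
    Q.Pt α (ℓ + 1) (B \ L) (fun i => p i + ∑ v ∈ L, α v i)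
      ≤ Q.Pt α ℓ B (fun i => (p i + (q i - P.Gz α i ℓ B)) / 2) := by
  unfold Ext.Pt
  refine hS.sum_new hα hI ?_ ?_ ?_
  · intro i hc
    exact Q.cor_term hc (hS.mid_corr hc (hI.hq i))
  · intro i hi
    have hc : ¬ P.γ ≤ P.lam i ℓ := by
      have := P.two_e_le_γ
      have he := P.e_pos
      intro h
      linarith
    rw [if_neg (not_cor_succ P hc)]
    exact hS.tail_RL hα hI hi
  · intro i _ hz2
    rw [if_neg (not_cor_succ P (not_le.mpr hz2))]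
    exact hS.zone_RL hα hI

end Vale.Agent.P262H
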