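import Vale.Agent.P262N.Round
import Vale.Agent.P262N.Pot

/-! # The node step. -/

open Finset

namespace Vale.Agent.P262H

variable {d : ℕ} {P : Par d} {Q : Ext P}
variable {ι : Type*} [DecidableEq ι] {α : ι → Fin d → ℝ}
variable {ℓ : ℕ} {B : Finset ι} {p q : Fin d → ℝ}

/-- The spill on a frozen coordinate, from the properties of `a` only. -/
lemma spill_of {a : Fin d → ℝ} (ha0 : ∀ k, P.lam k ℓ < P.γ → a k = 0)
    (ha2 : ∑ k, P.lam k ℓ * a k ^ 2 ≤ 4 * P.σ ^ 2 * P.RR ℓ)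
    (hE : ∀ i j, |MM α B i j - (if i = j then P.lam i ℓ else 0)| ≤ 5 * (P.tau i ℓ * P.tau j ℓ))
    {i : Fin d} (hi : P.lam i ℓ < P.γ) : |∑ v ∈ B, sh α a v * α v i| ≤ 17 * P.σ * P.rho ℓ := by
  rw [sh_sum_coord]
  have h1 := P.spill α B ℓ hE a ha0 ha2 hi
  have h2 := P.rho_nonneg ℓ
  have h3 := P.σ_pos
  have h4 : 0 ≤ P.σ * P.rho ℓ := by positivity
  linarith

/-- Existence of a split (from `Par.solve` and `Ext.round`). -/
theorem Ext.exists_split (hα : ∀ v, ∑ i, α v i ^ 2 ≤ 1) (hI : Q.Inv α ℓ B p q) :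
    ∃ a L, Q.Sp α ℓ B p q a L := by
  have hE : ∀ i j, |MM α B i j - (if i = j then P.lam i ℓ else 0)| ≤ 5 * (P.tau i ℓ * P.tau j ℓ) := hI.hE
  have hx : ∀ k, P.γ ≤ P.lam k ℓ → |-(p k + q k) / 2| ≤ P.σ := by
    intro k hk
    obtain ⟨h1, h2⟩ := hI.hC k hk
    rw [abs_div, abs_neg, abs_of_pos (by norm_num : (0 : ℝ) < 2), div_le_iff₀ (by norm_num)]
    have := abs_add_le (p k) (q k)
    linarith
  obtain ⟨a, ha0, hsol, ha2, ha3⟩ := P.solve α B ℓ hE _ hx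
  have hl1 := P.a_l1 ℓ a ha0 ha2
  have hsmall : ∀ v, |sh α a v| ≤ 1 / 100 := by
    intro v
    have h1 := sh_abs_le α hα a v
    have h2 := P.RR_le_d ℓ
    have hσ := P.σ_pos
    have h3 := mul_le_mul_of_nonneg_left h2 (by positivity : 0 ≤ 2 * P.σ)
    have h4 := P.eta_small
    linarith
  have hy : ∀ v ∈ B, 0 ≤ 1 / 2 + sh α a v ∧ 1 / 2 + sh α a v ≤ 1 := by
    intro v _
    have := abs_le.mp (hsmall v)
    constructor <;> linarith [this.1, this.2]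
  have ht := Q.t_nonneg
  have hω : ∀ i, 1 ≤ Q.hh i (ℓ + 1) * Real.exp (Q.t * P.entry i ℓ) := by
    intro i
    have h1 := Q.hh_one_le i (ℓ + 1)
    have h2 : 1 ≤ Real.exp (Q.t * P.entry i ℓ) :=
      Real.one_le_exp (mul_nonneg ht (P.entry_nonneg i ℓ))
    nlinarith
  have hS : ∑ i, (if P.e ≤ P.lam i ℓ ∧ P.lam i ℓ < P.γ then
      Q.hh i (ℓ + 1) * Real.exp (Q.t * P.entry i ℓ) *
        ch Q.t ((p i + q i) / 2 + ∑ v ∈ B, sh α a v * α v i) * Real.exp Q.ξ else 0) ≤ Q.Phi := by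
    have hmid := Q.Pt_mid α ℓ B p (fun i => q i - P.Gz α i ℓ B)
    have h1 := hI.hP1
    have h2 := hI.hP2
    refine le_trans ?_ (hmid.trans (by linarith))
    unfold Ext.Pt
    refine Finset.sum_le_sum fun i _ => ?_
    split_ifs with hz hc hc
    · exact absurd hc (not_le.mpr hz.2)
    · obtain ⟨hz1, hz2⟩ := hz
      obtain ⟨hG0, hT0⟩ := Gz_zero P α hz1 B
      beta_reduce
      rw [hT0, hG0]
      simp only [mul_zero, Real.exp_zero, mul_one, sub_zero]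
      have hsp := spill_of ha0 ha2 hE hz2
      have h3 := ch_shift ht ((p i + q i) / 2) ((p i + q i) / 2 + ∑ v ∈ B, sh α a v * α v i)
        (∑ v ∈ B, sh α a v * α v i) (17 * P.σ * P.rho ℓ) rfl hsp
      have h4 := Q.hh_zone hz1 hz2
      have hc' := ch_pos Q.t ((p i + q i) / 2)
      have hpos : 0 ≤ Q.hh i (ℓ + 1) * Real.exp (Q.t * P.entry i ℓ) :=
        mul_nonneg (Q.hh_nonneg _ _) (Real.exp_pos _).le
      calc _ ≤ Q.hh i (ℓ + 1) * Real.exp (Q.t * P.entry i ℓ) *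
            (ch Q.t ((p i + q i) / 2) * Real.exp (Q.t * (17 * P.σ * P.rho ℓ))) * Real.exp Q.ξ := by
            apply mul_le_mul_of_nonneg_right _ (Real.exp_pos _).le
            exact mul_le_mul_of_nonneg_left h3 hpos
        _ = Q.hh i (ℓ + 1) * Real.exp (Q.t * P.entry i ℓ) * Real.exp Q.ξ *
            Real.exp (Q.t * (17 * P.σ * P.rho ℓ)) * ch Q.t ((p i + q i) / 2) := by ring
        _ ≤ _ := mul_le_mul_of_nonneg_right h4 hc'.le
    · exact Q.kc_pos.le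
    · have := Q.hh_nonneg i ℓ
      have := ch_pos Q.t ((p i + (q i - P.Gz α i ℓ B)) / 2)
      positivity
  obtain ⟨L, hLB, Ns, N1, N2, N3, N4, N5⟩ := Q.round α hα B ℓ (fun v => 1 / 2 + sh α a v) hy
    (fun i => Q.hh i (ℓ + 1) * Real.exp (Q.t * P.entry i ℓ))
    (fun i => (p i + q i) / 2 + ∑ v ∈ B, sh α a v * α v i) hω hS
  exact ⟨a, L, hLB, ha0, hsol, ha2, ha3, Ns, N1, N2, N3, N4, N5⟩

/-- The step: children of a node satisfy the invariants of the next level. -/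
theorem Ext.node (hα : ∀ v, ∑ i, α v i ^ 2 ≤ 1) (hI : Q.Inv α ℓ B p q)
    (hsize : 2 * P.σ + 2 < (B.card : ℝ)) :
    ∃ L ⊆ B, ∃ z : Fin d → ℝ, (∀ i, z i = p i + ∑ v ∈ L, α v i) ∧
      L.card < B.card ∧ (B \ L).card < B.card ∧
      Q.Inv α (ℓ + 1) L p z ∧ Q.Inv α (ℓ + 1) (B \ L) z q := by
  obtain ⟨a, L, hS⟩ := Q.exists_split hα hI
  have hE : ∀ i j, |MM α B i j - (if i = j then P.lam i ℓ else 0)| ≤ 5 * (P.tau i ℓ * P.tau j ℓ) := hI.hE
  have hLB := hS.hLB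
  have hq := hI.hq
  have hzq : ∀ i, q i - (p i + ∑ v ∈ L, α v i) = ∑ v ∈ B \ L, α v i := by
    intro i
    have h1 := Finset.sum_sdiff (f := fun v => α v i) hLB
    have h2 := hq i
    linarith
  obtain ⟨hcL, hcR⟩ := hS.card_lt hα hq hI.hC hsize
  have hmid := Q.Pt_mid α ℓ B p (fun i => q i - P.Gz α i ℓ B)
  have hP1 := hI.hP1
  have hP2 := hI.hP2
  have hmid' : Q.Pt α ℓ B (fun i => (p i + (q i - P.Gz α i ℓ B)) / 2) ≤ Q.Phi :=
    hmid.trans (by linarith)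
  refine ⟨L, hLB, fun i => p i + ∑ v ∈ L, α v i, fun _ => rfl, hcL, hcR, ?_, ?_⟩
  · refine ⟨fun i => by ring, fun i j => hS.hE_left hE hα i j, ?_, hS.cntL hα hI,
      (hS.pot_LL hα hI).trans hP1, (hS.pot_LR hα hI).trans hmid'⟩
    intro i hi
    have hi2 := hi.trans (P.lam_succ_le i ℓ)
    exact ⟨(hI.hC i hi2).1, hS.mid_corr hi2 (hq i)⟩
  · refine ⟨hzq, fun i j => hS.hE_right hE hα i j, ?_, hS.cntR hα hI,
      (hS.pot_RL hα hI).trans hmid', (hS.pot_RR hα hI).trans hP2⟩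
    intro i hi
    have hi2 := hi.trans (P.lam_succ_le i ℓ)
    exact ⟨hS.mid_corr hi2 (hq i), (hI.hC i hi2).2⟩

end Vale.Agent.P262H
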