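import Vale.Agent.P262N.Node
import Vale.Agent.P262H.Root

/-! # The order, the root, and the final bound in coordinates. -/

open Finset

namespace Vale.Agent.P262H

variable {d : ℕ} {P : Par d} {Q : Ext P}
variable {ι : Type*} [DecidableEq ι] {α : ι → Fin d → ℝ}

/-- The radius of the left ends. -/
noncomputable def Ext.rad (Q : Ext P) : ℝ := √(Q.Phi / Q.t ^ 2 + (d : ℝ) * P.σ ^ 2)

omit [DecidableEq ι] in
/-- Left ends of nodes lie in a ball. -/
lemma Ext.Inv.left_norm {ℓ : ℕ} {B : Finset ι} {p q : Fin d → ℝ} (hI : Q.Inv α ℓ B p q) :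
    ∑ i, p i ^ 2 ≤ Q.Phi / Q.t ^ 2 + (d : ℝ) * P.σ ^ 2 := by
  have ht := Q.ht
  have ht2 : 0 < Q.t ^ 2 := by positivity
  have hσ := P.σ_pos
  have h1 := hI.hP1
  have hterm : ∀ i, p i ^ 2 ≤ (if P.γ ≤ P.lam i ℓ then Q.kc
      else Q.hh i ℓ * Real.exp (Q.t * P.Tz α i ℓ B) * ch Q.t (p i)) / Q.t ^ 2 + P.σ ^ 2 := by
    intro i
    split_ifs with hc
    · have h2 : p i ^ 2 ≤ P.σ ^ 2 := by
        rw [← sq_abs (p i)]
        exact pow_le_pow_left₀ (abs_nonneg _) (hI.hC i hc).1 2
      have h3 : 0 ≤ Q.kc / Q.t ^ 2 := div_nonneg Q.kc_pos.le ht2.le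
      linarith
    · have h2 := sq_le_ch Q.t (p i)
      have h3 := Q.hh_one_le i ℓ
      have h4 : 1 ≤ Real.exp (Q.t * P.Tz α i ℓ B) :=
        Real.one_le_exp (mul_nonneg ht.le (Tz_nonneg P α i ℓ B))
      have h5 := ch_pos Q.t (p i)
      have h6 : ch Q.t (p i) ≤ Q.hh i ℓ * Real.exp (Q.t * P.Tz α i ℓ B) * ch Q.t (p i) := by
        have h7 : 1 ≤ Q.hh i ℓ * Real.exp (Q.t * P.Tz α i ℓ B) := by nlinarith
        nlinarith
      have h8 : p i ^ 2 ≤ (Q.hh i ℓ * Real.exp (Q.t * P.Tz α i ℓ B) * ch Q.t (p i)) / Q.t ^ 2 := by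
        rw [le_div_iff₀ ht2]
        nlinarith
      have := sq_nonneg P.σ
      linarith
  calc ∑ i, p i ^ 2 ≤ ∑ i, ((if P.γ ≤ P.lam i ℓ then Q.kc
        else Q.hh i ℓ * Real.exp (Q.t * P.Tz α i ℓ B) * ch Q.t (p i)) / Q.t ^ 2 + P.σ ^ 2) :=
        Finset.sum_le_sum fun i _ => hterm i
    _ = Q.Pt α ℓ B p / Q.t ^ 2 + (d : ℝ) * P.σ ^ 2 := by
        rw [Finset.sum_add_distrib, ← Finset.sum_div]
        simp [Ext.Pt]
    _ ≤ _ := by
        have := div_le_div_of_nonneg_right h1 ht2.le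
        linarith

/-- The order: strong induction on the size of the block. -/
theorem Ext.order (hα : ∀ v, ∑ i, α v i ^ 2 ≤ 1) (n : ℕ) :
    ∀ (ℓ : ℕ) (B : Finset ι) (p q : Fin d → ℝ), B.card = n → Q.Inv α ℓ B p q →
      ∃ l : List ι, l.Nodup ∧ l.toFinset = B ∧
        ∀ k, ‖EV p + ((l.take k).map fun v => EV (α v)).sum‖ ≤ Q.rad + (2 * P.σ + 2) := by
  have hσ := P.σ_pos
  induction n using Nat.strong_induction_on with
  | _ n ih =>
    intro ℓ B p q hn hI
    by_cases hsize : (B.card : ℝ) ≤ 2 * P.σ + 2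
    · -- leaf
      refine ⟨B.toList, B.nodup_toList, B.toList_toFinset, fun k => ?_⟩
      have h1 : ‖EV p‖ ≤ Q.rad := by
        unfold Ext.rad
        apply Real.le_sqrt_of_sq_le
        rw [EV_norm_sq]
        exact hI.left_norm
      have h2 := list_norm_le (α := α) hα (B.toList.take k)
      have h3 : ((B.toList.take k).length : ℝ) ≤ B.card := by
        have : (B.toList.take k).length ≤ B.toList.length := List.length_take_le' _ _
        rw [Finset.length_toList] at this
        exact_mod_cast this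
      have h4 := norm_add_le (EV p) ((B.toList.take k).map fun v => EV (α v)).sum
      linarith
    · push Not at hsize
      obtain ⟨L, hLB, z, hz, hcL, hcR, hIL, hIR⟩ := Q.node hα hI hsize
      obtain ⟨l1, h1n, h1f, h1k⟩ := ih L.card (hn ▸ hcL) ℓ.succ L p z rfl hIL
      obtain ⟨l2, h2n, h2f, h2k⟩ := ih (B \ L).card (hn ▸ hcR) ℓ.succ (B \ L) z q rfl hIR
      refine ⟨l1 ++ l2, ?_, ?_, ?_⟩
      · refine List.Nodup.append h1n h2n ?_
        intro x hx1 hx2
        have h3 : x ∈ L := by rw [← h1f]; exact List.mem_toFinset.mpr hx1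
        have h4 : x ∈ B \ L := by rw [← h2f]; exact List.mem_toFinset.mpr hx2
        exact (Finset.mem_sdiff.mp h4).2 h3
      · rw [List.toFinset_append, h1f, h2f]
        exact Finset.union_sdiff_of_subset hLB
      · intro k
        rw [List.take_append, List.map_append, List.sum_append]
        by_cases hk : k ≤ l1.length
        · have e : k - l1.length = 0 := by omega
          rw [e]
          simpa using h1k k
        · have e : l1.take k = l1 := List.take_of_length_le (by omega)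
          rw [e]
          have e2 : EV p + (l1.map fun v => EV (α v)).sum = EV z := by
            have e3 : (l1.map fun v => EV (α v)).sum = ∑ v ∈ L, EV (α v) := by
              rw [← h1f, List.sum_toFinset _ h1n]
            rw [e3]
            ext i
            simp [hz i, WithLp.ofLp_sum, Finset.sum_apply]
          rw [← add_assoc, e2]
          exact h2k _

/-- The clipped count at the root. -/
lemma Ext.cnt_root [Fintype ι] (Q : Ext P) (hL : ∀ i, ∑ v, α v i * α v i = P.Λ i - 1) :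
    ∑ v, P.cl α 0 v ≤ P.Cs := by
  have hσ := P.σ_pos
  have hd := P.d_pos
  have h1 : ∑ v, P.cl α 0 v ≤ ∑ v, P.uu α 0 v :=
    Finset.sum_le_sum fun v _ => min_le_left _ _
  have h2 : ∑ v, P.uu α 0 v
      = ∑ i, if P.lam i 0 ≤ 2 * P.σ then P.Wt i 0 * (P.Λ i - 1) else 0 := by
    unfold Par.uu
    rw [Finset.sum_comm]
    refine Finset.sum_congr rfl fun i _ => ?_
    split_ifs with h
    · rw [← hL i, Finset.mul_sum]
      refine Finset.sum_congr rfl fun v _ => ?_
      ring
    · simp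
  have hterm : ∀ i, (if P.lam i 0 ≤ 2 * P.σ then P.Wt i 0 * (P.Λ i - 1) else 0) ≤ 2 * P.σ / d := by
    intro i
    have hb : 0 ≤ 2 * P.σ / (d : ℝ) := by positivity
    split_ifs with h
    · have hl := Q.lam_pos i 0
      rw [P.lam_zero] at h hl
      have hW := P.Wt_nonneg i 0
      have h3 : P.Wt i 0 * (P.Λ i - 1) ≤ P.Wt i 0 * P.Λ i :=
        mul_le_mul_of_nonneg_left (by linarith) hW
      refine h3.trans ?_
      have h4 : (P.Wt i 0 * P.Λ i) ^ 2 ≤ (2 * P.σ / d) ^ 2 := by
        have e1 : P.Wt i 0 ^ 2 = P.e / P.Λ i := by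
          unfold Par.Wt
          rw [P.lam_zero, Real.sq_sqrt (div_nonneg P.e_pos.le hl.le)]
        have e2 : (P.Wt i 0 * P.Λ i) ^ 2 = P.e * P.Λ i := by
          rw [mul_pow, e1]
          field_simp
        rw [e2]
        have e3 : (2 * P.σ / (d : ℝ)) ^ 2 = 2 * P.e * (2 * P.σ) := by
          unfold Par.e
          field_simp
        rw [e3]
        have he := P.e_pos
        nlinarith
      exact abs_le_of_sq_le_sq' h4 hb |>.2
    · exact hb
  calc ∑ v, P.cl α 0 v ≤ ∑ i, if P.lam i 0 ≤ 2 * P.σ then P.Wt i 0 * (P.Λ i - 1) else 0 := by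
        rw [← h2]; exact h1
    _ ≤ ∑ _i : Fin d, 2 * P.σ / d := Finset.sum_le_sum fun i _ => hterm i
    _ = 2 * P.σ := by
        simp
        field_simp
    _ ≤ P.Cs := by
        unfold Par.Cs
        linarith

/-- The root of the tree: here `P.Λ i` is the `i`-th eigenvalue plus one. -/
theorem Ext.root [Fintype ι] (Q : Ext P) (hα : ∀ v, ∑ i, α v i ^ 2 ≤ 1) (h0 : ∀ i, ∑ v, α v i = 0)
    (hL : ∀ i j, ∑ v, α v i * α v j = if i = j then P.Λ i - 1 else 0) :
    Q.Inv α 0 univ 0 0 := by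
  have hσ := P.σ_pos
  have hcnt : ∑ v ∈ (univ : Finset ι), P.cl α 0 v ≤ P.Cs :=
    Q.cnt_root (fun i => by rw [hL i i, if_pos rfl])
  have ht := Q.t_nonneg
  have hch0 : ch Q.t 0 = 2 := by
    unfold ch
    simp
    norm_num
  have hsum : ∀ f : Fin d → ℝ, (∀ i, f i ≤ Q.kc) → ∑ i, f i ≤ Q.Phi := by
    intro f hf
    calc ∑ i, f i ≤ ∑ _i : Fin d, Q.kc := Finset.sum_le_sum fun i _ => hf i
      _ = Q.Phi := by
        simp [Ext.Phi, Par.Phi0, Ext.kc]
  have hCs := P.Cs_pos
  have hTz : ∀ i, P.Tz α i 0 univ ≤ P.Cs := fun i => (Tz_le_cl P hα i 0 univ).trans hcnt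
  refine ⟨fun i => by simp [h0], ?_, ?_, hcnt, ?_, ?_⟩
  · intro i j
    have h1 := P.tau_pos i 0
    have h2 := P.tau_pos j 0
    rw [hL, P.lam_zero]
    by_cases hij : i = j
    · subst hij
      simp only [if_true]
      have h3 := P.two_σ_le_tau_sq i 0
      have e : P.Λ i - 1 - P.Λ i = -1 := by ring
      rw [e, abs_neg, abs_one]
      nlinarith [P.hσ]
    · simp only [if_neg hij, sub_self, abs_zero]
      positivity
  · intro i _
    simp only [Pi.zero_apply, abs_zero]
    exact ⟨hσ.le, hσ.le⟩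
  · apply hsum
    intro i
    split_ifs with hc
    · exact le_rfl
    · by_cases ht' : P.lam i 0 < P.e
      · have h1 := Q.hh_root ht'
        have h2 := hTz i
        have h3 := Q.hh_nonneg i 0
        simp only [Pi.zero_apply]
        rw [hch0]
        have h4 : Real.exp (Q.t * P.Tz α i 0 univ) ≤ Real.exp (Q.t * P.Cs) :=
          Real.exp_le_exp.mpr (mul_le_mul_of_nonneg_left h2 ht)
        have h5 : 1 ≤ Real.exp (Q.t * P.Cs) := Real.one_le_exp (by positivity)
        have h6 := Real.exp_pos (Q.t * P.Cs)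
        have h7 := Real.exp_pos (Q.t * P.Tz α i 0 univ)
        calc Q.hh i 0 * Real.exp (Q.t * P.Tz α i 0 univ) * 2
            ≤ Q.hh i 0 * Real.exp (Q.t * P.Cs) * 2 := by
              apply mul_le_mul_of_nonneg_right _ (by norm_num)
              exact mul_le_mul_of_nonneg_left h4 h3
          _ ≤ Q.hh i 0 * Real.exp (Q.t * P.Cs) * Real.exp (Q.t * P.Cs) * 2 := by
              apply mul_le_mul_of_nonneg_right _ (by norm_num)
              exact le_mul_of_one_le_right (by positivity) h5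
          _ ≤ _ := h1
      · obtain ⟨_, h2⟩ := Gz_zero P α (not_lt.mp ht') univ
        rw [h2]
        simp only [mul_zero, Real.exp_zero, mul_one, Pi.zero_apply]
        exact Q.hh_le_kc i 0 (by simpa using hσ.le)
  · apply hsum
    intro i
    split_ifs with hc
    · exact le_rfl
    · by_cases ht' : P.lam i 0 < P.e
      · have h1 := Q.hh_root ht'
        have h2 := hTz i
        have h3 := Q.hh_nonneg i 0
        have hG := Gz_abs_le P α i 0 univ
        have h8 : ch Q.t ((0 : Fin d → ℝ) i - P.Gz α i 0 univ) ≤ 2 * Real.exp (Q.t * P.Cs) := by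
          have := ch_shift ht 0 ((0 : Fin d → ℝ) i - P.Gz α i 0 univ) (-P.Gz α i 0 univ) P.Cs
            (by simp) (by rw [abs_neg]; linarith)
          rwa [hch0] at this
        have h4 : Real.exp (Q.t * P.Tz α i 0 univ) ≤ Real.exp (Q.t * P.Cs) :=
          Real.exp_le_exp.mpr (mul_le_mul_of_nonneg_left h2 ht)
        have h6 := Real.exp_pos (Q.t * P.Cs)
        have h7 := Real.exp_pos (Q.t * P.Tz α i 0 univ)
        calc Q.hh i 0 * Real.exp (Q.t * P.Tz α i 0 univ) * ch Q.t ((0 : Fin d → ℝ) i - P.Gz α i 0 univ)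
            ≤ Q.hh i 0 * Real.exp (Q.t * P.Cs) * (2 * Real.exp (Q.t * P.Cs)) :=
              mul_le_mul (mul_le_mul_of_nonneg_left h4 h3) h8 (ch_pos _ _).le (by positivity)
          _ = Q.hh i 0 * Real.exp (Q.t * P.Cs) * Real.exp (Q.t * P.Cs) * 2 := by ring
          _ ≤ _ := h1
      · obtain ⟨h1, h2⟩ := Gz_zero P α (not_lt.mp ht') univ
        beta_reduce
        rw [h2, h1]
        simp only [mul_zero, Real.exp_zero, mul_one, Pi.zero_apply, sub_zero]
        exact Q.hh_le_kc i 0 (by simpa using hσ.le)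

/-- The coordinate form. -/
theorem Ext.final {N : ℕ} (Q : Ext P) (α : Fin N → Fin d → ℝ) (hα : ∀ n, ∑ i, α n i ^ 2 ≤ 1)
    (h0 : ∀ i, ∑ v, α v i = 0)
    (hL : ∀ i j, ∑ v, α v i * α v j = if i = j then P.Λ i - 1 else 0) :
    ∃ l : List (Fin N), l.Nodup ∧ l.toFinset = univ ∧
      ∀ k, ∑ i, ((l.take k).map α).sum i ^ 2 ≤ (Q.rad + (2 * P.σ + 2)) ^ 2 := by
  obtain ⟨l, h1, h2, h3⟩ := Ext.order (Q := Q) (α := α) hα _ 0 univ 0 0 rfl (Q.root hα h0 hL)
  refine ⟨l, h1, h2, fun k => ?_⟩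
  have h4 := h3 k
  rw [EV_list_sum] at h4
  have h5 : EV (0 : Fin d → ℝ) = 0 := rfl
  rw [h5, zero_add] at h4
  rw [← EV_norm_sq]
  exact pow_le_pow_left₀ (norm_nonneg _) h4 2

end Vale.Agent.P262H
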