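import Vale.Agent.P262N.Order
import Vale.Agent.P262H.Params

/-! # Explicit parameters. -/

open Finset

namespace Vale.Agent.P262H

lemma log_five_lt' : Real.log 5 < (1.61 : ℝ) := by
  have h3 : 2.7182818283 < Real.exp 1 := Real.exp_one_gt_d9
  have h4 : (5 : ℝ) < Real.exp (161 / 100) := by
    have h5 : Real.exp (161 / 100) ^ 100 = Real.exp 1 ^ 161 := by
      rw [← Real.exp_nat_mul, ← Real.exp_nat_mul]
      norm_num
    have h6 : (5 : ℝ) ^ 100 < Real.exp 1 ^ 161 := by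
      calc (5 : ℝ) ^ 100 < (2.7182818283 : ℝ) ^ 161 := by norm_num
        _ < Real.exp 1 ^ 161 := pow_lt_pow_left₀ h3 (by norm_num) (by norm_num)
    rw [← h5] at h6
    exact lt_of_pow_lt_pow_left₀ 100 (Real.exp_pos _).le h6
  rw [show (1.61 : ℝ) = 161 / 100 by norm_num, Real.log_lt_iff_lt_exp (by norm_num)]
  exact h4

lemma log_ten_lt' : Real.log 10 < (2.3032 : ℝ) := by
  rw [show (10 : ℝ) = 2 * 5 by norm_num, Real.log_mul (by norm_num) (by norm_num)]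
  have := log_five_lt'
  have := log_two_bounds
  linarith

lemma log_ge_of_three {n : ℝ} (hn : 1 ≤ n) : (1.09 : ℝ) ≤ Real.log (n + 2) := by
  have h1 := log_three_gt
  have h2 : Real.log 3 ≤ Real.log (n + 2) := Real.log_le_log (by norm_num) (by linarith)
  linarith

lemma one_le_sqrt_log {n : ℝ} (hn : 1 ≤ n) : 1 ≤ √(Real.log (n + 2)) := by
  have := log_ge_of_three hn
  rw [Real.one_le_sqrt]
  linarith

/-- The number of levels of the zone. -/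
lemma Lmax_arith {n Lg σ : ℝ} (hn : 1 ≤ n) (hLg : Lg = Real.log (n + 2)) (hσ : σ = 25 * √Lg) :
    1 ≤ Real.logb 2 (2 * (10 ^ 8 * n ^ 2 * σ ^ 2) / (σ / n ^ 2)) ∧
    Real.logb 2 (2 * (10 ^ 8 * n ^ 2 * σ ^ 2) / (σ / n ^ 2)) ≤ 37 * Lg := by
  have hLg1 : (1.09 : ℝ) ≤ Lg := hLg ▸ log_ge_of_three hn
  have hs1 : 1 ≤ √Lg := hLg ▸ one_le_sqrt_log hn
  have hσ25 : 25 ≤ σ := by rw [hσ]; linarith
  have hnpos : 0 < n := by linarith
  have hσpos : 0 < σ := by linarith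
  have e : 2 * (10 ^ 8 * n ^ 2 * σ ^ 2) / (σ / n ^ 2) = 2 * 10 ^ 8 * n ^ 4 * σ := by
    field_simp
  rw [e, Real.logb]
  obtain ⟨hl2a, hl2b⟩ := log_two_bounds
  have hl2pos : 0 < Real.log 2 := by linarith
  have hn4 : 1 ≤ n ^ 4 := one_le_pow₀ hn
  constructor
  · rw [le_div_iff₀ hl2pos, one_mul]
    refine Real.log_le_log (by norm_num) ?_
    have : 1 ≤ n ^ 4 * σ := by nlinarith
    nlinarith
  · rw [div_le_iff₀ hl2pos]
    have e2 : Real.log (2 * 10 ^ 8 * n ^ 4 * σ)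
        = Real.log 2 + 8 * Real.log 10 + 4 * Real.log n + Real.log σ := by
      rw [Real.log_mul (by positivity) (by positivity), Real.log_mul (by positivity) (by positivity),
        Real.log_mul (by positivity) (by positivity), Real.log_pow, Real.log_pow]
      push_cast
      ring
    rw [e2]
    have h10 := log_ten_lt'
    have hln : Real.log n ≤ Lg := by
      rw [hLg]
      exact Real.log_le_log hnpos (by linarith)
    have hlσ : Real.log σ = 2 * Real.log 5 + Real.log Lg / 2 := by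
      rw [hσ, show (25 : ℝ) = 5 ^ 2 by norm_num, Real.log_mul (by positivity) (by positivity),
        Real.log_pow, Real.log_sqrt (by linarith)]
      push_cast
      ring
    have h5 := log_five_lt'
    have hlLg : Real.log Lg ≤ Lg - 1 := Real.log_le_sub_one_of_pos (by linarith)
    have h37 : 37 * 0.6931 * Lg ≤ 37 * Lg * Real.log 2 := by nlinarith
    linarith

lemma exp_le_inv {x : ℝ} (hx : x < 1) : Real.exp x ≤ 1 / (1 - x) := by
  have h1 : 1 - x ≤ Real.exp (-x) := by linarith [Real.add_one_le_exp (-x)]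
  have h2 : 0 < 1 - x := by linarith
  rw [le_div_iff₀ h2]
  calc Real.exp x * (1 - x) ≤ Real.exp x * Real.exp (-x) :=
        mul_le_mul_of_nonneg_left h1 (Real.exp_pos _).le
    _ = 1 := by rw [← Real.exp_add]; simp

/-- The weight of a corrected coordinate is bounded. -/
lemma kc_arith {σ Lm om Lg : ℝ} (hσ : 25 ≤ σ) (hσ2 : σ ^ 2 = 625 * Lg) (hLm1 : 1 ≤ Lm)
    (hLm2 : Lm ≤ 37 * Lg) (hom0 : 0 ≤ om) (hom : om ≤ 0.01) :
    2 ≤ Real.exp (xiOf (1 / (600 * σ)) (1 / Lm) * Lm)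
        * Real.exp (1 / (600 * σ) * (520 * σ + 2 * (40 * σ) + om)) * ch (1 / (600 * σ)) σ ∧
      Real.exp (xiOf (1 / (600 * σ)) (1 / Lm) * Lm)
        * Real.exp (1 / (600 * σ) * (520 * σ + 2 * (40 * σ) + om)) * ch (1 / (600 * σ)) σ ≤ 15 := by
  have hσpos : 0 < σ := by linarith
  have hLmpos : 0 < Lm := by linarith
  have hLg0 : 0 < Lg := by nlinarith
  have hx1 : xiOf (1 / (600 * σ)) (1 / Lm) * Lm = 1 + 10.58 * Lm / (360000 * σ ^ 2) := by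
    unfold xiOf
    field_simp
    ring
  have hx2 : 10.58 * Lm / (360000 * σ ^ 2) ≤ 0.00001 := by
    rw [hσ2, div_le_iff₀ (by positivity)]
    nlinarith
  have hx3 : 0 ≤ 10.58 * Lm / (360000 * σ ^ 2) := by positivity
  have hy1 : 1 / (600 * σ) * (520 * σ + 2 * (40 * σ) + om) = 1 + om / (600 * σ) := by
    field_simp
    ring
  have hy2 : om / (600 * σ) ≤ 0.00001 := by
    rw [div_le_iff₀ (by positivity)]
    nlinarith
  have hy3 : 0 ≤ om / (600 * σ) := by positivity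
  have hz : 1 / (600 * σ) * σ = 1 / 600 := by field_simp
  have hch : ch (1 / (600 * σ)) σ = Real.exp (1 / 600) + Real.exp (-(1 / 600)) := by
    unfold ch
    rw [hz]
  have hz1 : Real.exp (1 / 600) ≤ 1.002 := by
    refine (exp_le_inv (by norm_num)).trans ?_
    norm_num
  have hz2 : Real.exp (-(1 / 600)) ≤ 1 := by
    rw [Real.exp_le_one_iff]
    norm_num
  have hch2 : ch (1 / (600 * σ)) σ ≤ 2.002 := by
    rw [hch]
    linarith
  have hch3 := two_le_ch (1 / (600 * σ)) σ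
  rw [hx1, hy1]
  obtain ⟨a, ha⟩ : ∃ a, a = 10.58 * Lm / (360000 * σ ^ 2) := ⟨_, rfl⟩
  obtain ⟨b, hb⟩ : ∃ b, b = om / (600 * σ) := ⟨_, rfl⟩
  rw [← ha] at hx2 hx3 ⊢
  rw [← hb] at hy2 hy3 ⊢
  constructor
  · have h1 : 1 ≤ Real.exp (1 + a) := Real.one_le_exp (by linarith)
    have h2 : 1 ≤ Real.exp (1 + b) := Real.one_le_exp (by linarith)
    have h3 : 1 ≤ Real.exp (1 + a) * Real.exp (1 + b) := by nlinarith
    nlinarith
  · have he1 : Real.exp (1 + a + (1 + b)) = Real.exp 1 * Real.exp 1 * Real.exp (a + b) := by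
      rw [← Real.exp_add, ← Real.exp_add]
      congr 1
      ring
    have he := Real.exp_one_lt_d9
    have he0 : 0 < Real.exp 1 := Real.exp_pos _
    have hab : Real.exp (a + b) ≤ 1.0001 := by
      refine (exp_le_inv (by linarith)).trans ?_
      rw [div_le_iff₀ (by linarith)]
      nlinarith
    have h1 : Real.exp 1 * Real.exp 1 ≤ 7.39 := by nlinarith
    have h2 : Real.exp (1 + a) * Real.exp (1 + b) ≤ 7.4 := by
      rw [← Real.exp_add, he1]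
      have : 0 ≤ Real.exp (a + b) := (Real.exp_pos _).le
      nlinarith
    have h3 : 0 < Real.exp (1 + a) * Real.exp (1 + b) := by positivity
    nlinarith

/-- What enters the hard tolerance. -/
lemma Aa_arith {n Lg Φ Lm : ℝ} (hn : 1 ≤ n) (hLg : Lg = Real.log (n + 2)) (hΦ0 : 2 ≤ Φ)
    (hΦ : Φ ≤ 15 * n) (hLm1 : 1 ≤ Lm) (hLm2 : Lm ≤ 37 * Lg) :
    1 ≤ Real.log ((Φ + 2 * (1 / Lm)) * ((n + 1) ^ 2 + 1) / (1 / Lm)) ∧
      Real.log ((Φ + 2 * (1 / Lm)) * ((n + 1) ^ 2 + 1) / (1 / Lm)) ≤ 14 * Lg := by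
  have hLg1 : (1.09 : ℝ) ≤ Lg := hLg ▸ log_ge_of_three hn
  have hLmpos : 0 < Lm := by linarith
  have e : (Φ + 2 * (1 / Lm)) * ((n + 1) ^ 2 + 1) / (1 / Lm) = (Φ * Lm + 2) * ((n + 1) ^ 2 + 1) := by
    field_simp
  rw [e]
  have hA20 : 20 ≤ (Φ * Lm + 2) * ((n + 1) ^ 2 + 1) := by
    have h1 : 2 ≤ Φ * Lm := by nlinarith
    have h2 : 5 ≤ (n + 1) ^ 2 + 1 := by nlinarith
    nlinarith
  constructor
  · rw [Real.le_log_iff_exp_le (by linarith)]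
    have := Real.exp_one_lt_d9
    linarith
  · have h1 : Φ * Lm + 2 ≤ 556 * Lg * (n + 2) := by
      have h2 : Φ * Lm ≤ (15 * n) * (37 * Lg) :=
        mul_le_mul hΦ hLm2 (by linarith) (by linarith)
      nlinarith
    have h3 : (n + 1) ^ 2 + 1 ≤ (n + 2) ^ 2 := by nlinarith
    have h4 : (Φ * Lm + 2) * ((n + 1) ^ 2 + 1) ≤ 556 * Lg * (n + 2) ^ 3 := by
      have : (Φ * Lm + 2) * ((n + 1) ^ 2 + 1) ≤ (556 * Lg * (n + 2)) * (n + 2) ^ 2 :=
        mul_le_mul h1 h3 (by positivity) (by positivity)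
      calc _ ≤ _ := this
        _ = _ := by ring
    have h5 : Real.log ((Φ * Lm + 2) * ((n + 1) ^ 2 + 1)) ≤ Real.log (556 * Lg * (n + 2) ^ 3) :=
      Real.log_le_log (by linarith) h4
    have h6 : Real.log (556 * Lg * (n + 2) ^ 3) = Real.log 556 + Real.log Lg + 3 * Lg := by
      rw [Real.log_mul (by positivity) (by positivity), Real.log_mul (by norm_num) (by linarith),
        Real.log_pow, hLg]
      push_cast
      ring
    have h7 : Real.log 556 ≤ 10 * Real.log 2 := by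
      have : Real.log 556 ≤ Real.log (2 ^ 10) := Real.log_le_log (by norm_num) (by norm_num)
      rw [Real.log_pow] at this
      push_cast at this
      exact this
    have h8 := log_two_bounds.2
    have h9 : Real.log Lg ≤ Lg - 1 := Real.log_le_sub_one_of_pos (by linarith)
    linarith

/-- The bound for `b`. -/
lemma b_arith {n σ Lg T : ℝ} (hn : 1 ≤ n) (hLg : Lg = Real.log (n + 2)) (hσ : σ = 25 * √Lg) {m : ℕ}
    (hm : (m : ℝ) ≤ 18.4 + 2.5 * Real.log n + Real.log σ) (ht : T ≤ 0.01) :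
    σ + (25 * σ * ((2 * m : ℕ) : ℝ) + 225 / 2 * σ) + T ≤ 10 ^ 4 * n * σ := by
  have hLg1 : (1.09 : ℝ) ≤ Lg := hLg ▸ log_ge_of_three hn
  have hs1 : 1 ≤ √Lg := hLg ▸ one_le_sqrt_log hn
  have hσ25 : 25 ≤ σ := by rw [hσ]; linarith
  have hnpos : 0 < n := by linarith
  have hln : Real.log n ≤ n - 1 := Real.log_le_sub_one_of_pos hnpos
  have hLgn : Lg ≤ n + 1 := by
    have := Real.log_le_sub_one_of_pos (show (0 : ℝ) < n + 2 by linarith)
    rw [hLg]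
    linarith
  have hlσ : Real.log σ = 2 * Real.log 5 + Real.log Lg / 2 := by
    rw [hσ, show (25 : ℝ) = 5 ^ 2 by norm_num, Real.log_mul (by positivity) (by positivity),
      Real.log_pow, Real.log_sqrt (by linarith)]
    push_cast
    ring
  have h5 := log_five_lt'
  have hlLg : Real.log Lg ≤ Lg - 1 := Real.log_le_sub_one_of_pos (by linarith)
  have hm2 : (m : ℝ) ≤ 23 * n := by linarith
  have hcast : ((2 * m : ℕ) : ℝ) = 2 * (m : ℝ) := by push_cast; ring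
  rw [hcast]
  have h1 : σ * (m : ℝ) ≤ σ * (23 * n) := mul_le_mul_of_nonneg_left hm2 (by linarith)
  nlinarith

/-- The final bound, in numbers. -/
lemma final_arith {n k σ Lg : ℝ} (hn : 1 ≤ n) (hLg : 1.09 ≤ Lg) (hσ : σ = 25 * √Lg) (hk : n * k ≤ 15 * n) :
    √(n * k / (1 / (600 * σ)) ^ 2 + n * σ ^ 2) + (2 * σ + 2) ≤ 10 ^ 5 * √(n * Lg) := by
  have hs1 : 1 ≤ √Lg := by
    rw [Real.one_le_sqrt]
    linarith
  have hσpos : 0 < σ := by rw [hσ]; linarith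
  have hrad : √(n * k / (1 / (600 * σ)) ^ 2 + n * σ ^ 2) ≤ 2324 * √n * σ := by
    have e4 : (n * k) / (1 / (600 * σ)) ^ 2 = n * k * (360000 * σ ^ 2) := by
      field_simp
      ring
    rw [e4, Real.sqrt_le_iff]
    refine ⟨by positivity, ?_⟩
    rw [mul_pow, mul_pow, Real.sq_sqrt (by linarith)]
    have h5 : n * k * (360000 * σ ^ 2) ≤ 15 * n * (360000 * σ ^ 2) :=
      mul_le_mul_of_nonneg_right hk (by positivity)
    have h6 : 0 ≤ n * σ ^ 2 := by positivity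
    nlinarith
  rw [Real.sqrt_mul (by linarith)]
  have hsn : 1 ≤ √n := by
    rw [Real.one_le_sqrt]
    exact hn
  obtain ⟨r, hr⟩ : ∃ r, r = √n := ⟨_, rfl⟩
  obtain ⟨s, hs⟩ : ∃ s, s = √Lg := ⟨_, rfl⟩
  rw [← hr] at hrad hsn ⊢
  rw [← hs] at hs1 hσ ⊢
  rw [hσ] at hrad ⊢
  have h7 : s ≤ r * s := by nlinarith
  have h8 : 1 ≤ r * s := by nlinarith
  nlinarith

/-- The tolerance of the hard rows, in numbers. -/
lemma sigma_tol {X Lg σ : ℝ} (hσ : 0 < σ) (hσ2 : σ ^ 2 = 625 * Lg) (hX : X ≤ 14 * Lg) (hLg : 0 < Lg) :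
    6.6 * √X ≤ σ := by
  have h1 : √X ≤ σ / 6.6 := by
    rw [Real.sqrt_le_iff]
    refine ⟨by positivity, ?_⟩
    rw [div_pow, hσ2]
    refine hX.trans ?_
    rw [le_div_iff₀ (by norm_num)]
    nlinarith
  have h2 := mul_le_mul_of_nonneg_left h1 (by norm_num : (0 : ℝ) ≤ 6.6)
  have h3 : 6.6 * (σ / 6.6) = σ := by field_simp
  linarith

/-- The parameters of the tree, for a given `σ`. -/
lemma exists_par_of {d : ℕ} (hd : 1 ≤ d) (L : Fin d → ℝ) (hL : ∀ i, 0 < L i) {σ : ℝ}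
    (hσ0 : 6.6 * √(Real.log (2 * ((d : ℝ) + 1) ^ 2)) ≤ σ) (hσ2 : 2 ≤ σ) {m : ℕ}
    (hm2 : (10 ^ 8 * (d : ℝ) ^ 2 * σ ^ 2) / (6 * σ) * (3 / 5 : ℝ) ^ (2 * m) ≤ 1 / (2 * √(d : ℝ)))
    (hb1 : σ + (25 * σ * ((2 * m : ℕ) : ℝ) + 225 / 2 * σ) +
        17 * σ * ((d : ℝ) * (5 / 2 * √(2 / (10 ^ 8 * (d : ℝ) ^ 2 * σ ^ 2)))) ≤ 10 ^ 4 * (d : ℝ) * σ) :
    ∃ P : Par d, P.σ = σ ∧ P.γ = 10 ^ 8 * (d : ℝ) ^ 2 * σ ^ 2 ∧ P.Λ = L := by
  have hσpos : 0 < σ := by linarith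
  have hsqγ : √(10 ^ 8 * (d : ℝ) ^ 2 * σ ^ 2) = 10 ^ 4 * (d : ℝ) * σ := by
    rw [show (10 : ℝ) ^ 8 * (d : ℝ) ^ 2 * σ ^ 2 = (10 ^ 4 * (d : ℝ) * σ) ^ 2 by ring]
    exact Real.sqrt_sq (by positivity)
  exact ⟨{ σ := σ, γ := 10 ^ 8 * (d : ℝ) ^ 2 * σ ^ 2,
           b := σ + (25 * σ * ((2 * m : ℕ) : ℝ) + 225 / 2 * σ) +
             17 * σ * ((d : ℝ) * (5 / 2 * √(2 / (10 ^ 8 * (d : ℝ) ^ 2 * σ ^ 2)))),
           astar := 2 * m, Λ := L, hd := hd, hσ := hσ2,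
           hσ0 := hσ0, hΛ := fun i => (hL i).le, hγ := le_of_eq rfl, hstar := hm2, hb := le_of_eq rfl,
           hbγ := by rw [hsqγ]; exact hb1 }, rfl, rfl, rfl⟩

/-- Explicit parameters: `L` are the energies (positive). -/
theorem exists_ext (d : ℕ) (hd : 1 ≤ d) (L : Fin d → ℝ) (hL : ∀ i, 0 < L i) :
    ∃ (P : Par d) (Q : Ext P), P.Λ = L ∧
      Q.rad + (2 * P.σ + 2) ≤ 10 ^ 5 * √((d : ℝ) * Real.log (d + 2)) := by
  have hn : (1 : ℝ) ≤ d := by exact_mod_cast hd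
  obtain ⟨Lg, hLg⟩ : ∃ Lg, Lg = Real.log ((d : ℝ) + 2) := ⟨_, rfl⟩
  have hLg1 : (1.09 : ℝ) ≤ Lg := hLg ▸ log_ge_of_three hn
  have hs1 : 1 ≤ √Lg := hLg ▸ one_le_sqrt_log hn
  obtain ⟨σ, hσd⟩ : ∃ σ, σ = 25 * √Lg := ⟨_, rfl⟩
  have hσ25 : 25 ≤ σ := by rw [hσd]; linarith
  have hσpos : 0 < σ := by linarith
  have hσ2 : σ ^ 2 = 625 * Lg := by
    rw [hσd, mul_pow, Real.sq_sqrt (by linarith)]
    norm_num
  obtain ⟨hσ1, hσU, -⟩ := sigma_bounds hn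
  rw [← hLg] at hσU
  have hσ0 : 6.6 * √(Real.log (2 * ((d : ℝ) + 1) ^ 2)) ≤ σ := by
    rw [hσd]
    nlinarith
  obtain ⟨m, hm1, hm2⟩ := exists_decay hn (show 2 ≤ σ by linarith)
  have htail := tail_small hn (show 2 ≤ σ by linarith)
  have hb1 := b_arith hn hLg hσd hm1 htail
  obtain ⟨P, hPσ, hPγ, hPΛ⟩ := exists_par_of hd L hL hσ0 (by linarith) hm2 hb1
  have hLmx := Lmax_arith hn hLg hσd
  obtain ⟨Lm, hLm⟩ : ∃ Lm, Lm = Real.logb 2 (2 * (10 ^ 8 * (d : ℝ) ^ 2 * σ ^ 2) / (σ / (d : ℝ) ^ 2)) :=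
    ⟨_, rfl⟩
  rw [← hLm] at hLmx
  have hLmP : P.Lmax = Lm := by
    rw [hLm]
    unfold Par.Lmax Par.e
    rw [hPγ, hPσ]
  obtain ⟨om, hom⟩ : ∃ om, om = 17 * σ * ((d : ℝ) * (5 / 2 * √(2 / (10 ^ 8 * (d : ℝ) ^ 2 * σ ^ 2)))) :=
    ⟨_, rfl⟩
  have hom0 : 0 ≤ om := by rw [hom]; positivity
  rw [← hom] at htail
  have homP : P.OmM = om := by
    rw [hom]
    unfold Par.OmM
    rw [hPγ, hPσ]
  obtain ⟨hk1, hk2⟩ := kc_arith hσ25 hσ2 hLmx.1 hLmx.2 hom0 htail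
  obtain ⟨k, hk⟩ : ∃ k, k = Real.exp (xiOf (1 / (600 * σ)) (1 / Lm) * Lm)
        * Real.exp (1 / (600 * σ) * (520 * σ + 2 * (40 * σ) + om)) * ch (1 / (600 * σ)) σ := ⟨_, rfl⟩
  rw [← hk] at hk1 hk2
  have hΦ0 : 2 ≤ (d : ℝ) * k := by nlinarith
  have hΦ1 : (d : ℝ) * k ≤ 15 * (d : ℝ) := by nlinarith
  obtain ⟨hA1, hA2⟩ := Aa_arith hn hLg hΦ0 hΦ1 hLmx.1 hLmx.2
  have hkP : P.kc0 (1 / (600 * σ)) (1 / Lm) = k := by
    rw [hk]
    unfold Par.kc0 Par.D0 Par.Cs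
    rw [hLmP, homP, hPσ]
  have hΦP : P.Phi0 (1 / (600 * σ)) (1 / Lm) = (d : ℝ) * k := by
    unfold Par.Phi0
    rw [hkP]
  have hAP : P.Aa0 (1 / (600 * σ)) (1 / Lm)
      = ((d : ℝ) * k + 2 * (1 / Lm)) * (((d : ℝ) + 1) ^ 2 + 1) / (1 / Lm) := by
    unfold Par.Aa0 Rows
    rw [hΦP]
  have hLmpos : 0 < Lm := by linarith [hLmx.1]
  obtain ⟨Q, hQt, hQη⟩ : ∃ Q : Ext P, Q.t = 1 / (600 * σ) ∧ Q.η = 1 / Lm :=
    ⟨{ t := 1 / (600 * σ), η := 1 / Lm, ht := by positivity, hη := by positivity,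
       hΛ := fun i => by rw [hPΛ]; exact hL i,
       hσ10 := by rw [hPσ]; linarith,
       hA1 := by rw [hAP]; exact hA1,
       hA := by
         rw [hAP, hPσ]
         exact sigma_tol hσpos hσ2 hA2 (by linarith) }, rfl, rfl⟩
  refine ⟨P, Q, hPΛ, ?_⟩
  have hPhi : Q.Phi = (d : ℝ) * k := by
    unfold Ext.Phi
    rw [hQt, hQη]
    exact hΦP
  unfold Ext.rad
  rw [hPhi, hQt, hPσ, ← hLg]
  exact final_arith hn hLg1 hσd hΦ1

end Vale.Agent.P262H
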