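import Vale.Agent.P262N.KRW
import Vale.Agent.P262N.Cnt

/-! # The rounding at a node: soft rows for the zone, hard rows for all the rest. -/

open Finset

namespace Vale.Agent.P262H

variable {d : ℕ} {P : Par d} (Q : Ext P)
variable {ι : Type*} [DecidableEq ι] (α : ι → Fin d → ℝ)

/-- The rows of a node. -/
abbrev Jr (d : ℕ) := Fin d ⊕ (Fin d × Fin d) ⊕ Bool

/-- The columns of a node (normalised by `2.3`). -/
noncomputable def Par.rowN (P : Par d) (ℓ : ℕ) (v : ι) : Jr d → ℝ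
  | Sum.inl i => (if P.lam i ℓ < P.e then √(P.Wt i ℓ) * (if P.uu α ℓ v ≤ 1 then α v i else 0)
      else α v i) / 2.3
  | Sum.inr (Sum.inl x) => 2 * P.σ / (P.tau x.1 ℓ * P.tau x.2 ℓ) * (α v x.1 * α v x.2) / 2.3
  | Sum.inr (Sum.inr false) => 1 / 2.3
  | Sum.inr (Sum.inr true) => P.cl α (ℓ + 1) v / 2.3

lemma Par.rowN_first (P : Par d) (hα : ∀ v, ∑ i, α v i ^ 2 ≤ 1) (ℓ : ℕ) (v : ι) :
    ∑ i, (if P.lam i ℓ < P.e then √(P.Wt i ℓ) * (if P.uu α ℓ v ≤ 1 then α v i else 0)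
      else α v i) ^ 2 ≤ 2 := by
  have he : P.e ≤ 2 * P.σ := by
    have h1 := P.e_le_σ
    have h2 := P.σ_pos
    linarith
  have hW : ∀ i, 0 ≤ P.Wt i ℓ := fun i => P.Wt_nonneg i ℓ
  by_cases hu : P.uu α ℓ v ≤ 1
  · have hterm : ∀ i, (if P.lam i ℓ < P.e then √(P.Wt i ℓ) * (if P.uu α ℓ v ≤ 1 then α v i else 0)
        else α v i) ^ 2 ≤ α v i ^ 2 + (if P.lam i ℓ ≤ 2 * P.σ then P.Wt i ℓ * α v i ^ 2 else 0) := by
      intro i
      by_cases ht : P.lam i ℓ < P.e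
      · have h2 : P.lam i ℓ ≤ 2 * P.σ := by linarith
        simp only [ht, h2, hu, if_true]
        rw [mul_pow, Real.sq_sqrt (hW i)]
        nlinarith [sq_nonneg (α v i)]
      · simp only [ht, if_false]
        split_ifs
        · nlinarith [mul_nonneg (hW i) (sq_nonneg (α v i))]
        · linarith
    calc _ ≤ ∑ i, (α v i ^ 2 + (if P.lam i ℓ ≤ 2 * P.σ then P.Wt i ℓ * α v i ^ 2 else 0)) :=
          Finset.sum_le_sum fun i _ => hterm i
      _ = ∑ i, α v i ^ 2 + P.uu α ℓ v := by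
          rw [Finset.sum_add_distrib]
          rfl
      _ ≤ 2 := by linarith [hα v]
  · have hterm : ∀ i, (if P.lam i ℓ < P.e then √(P.Wt i ℓ) * (if P.uu α ℓ v ≤ 1 then α v i else 0)
        else α v i) ^ 2 ≤ α v i ^ 2 := by
      intro i
      by_cases ht : P.lam i ℓ < P.e
      · simp only [ht, hu, if_true, if_false, mul_zero]
        nlinarith [sq_nonneg (α v i)]
      · simp only [ht, if_false]
        exact le_rfl
    calc _ ≤ ∑ i, α v i ^ 2 := Finset.sum_le_sum fun i _ => hterm i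
      _ ≤ 2 := by linarith [hα v]

lemma Par.rowN_second (P : Par d) (hα : ∀ v, ∑ i, α v i ^ 2 ≤ 1) (ℓ : ℕ) (v : ι) :
    ∑ x : Fin d × Fin d, (2 * P.σ / (P.tau x.1 ℓ * P.tau x.2 ℓ) * (α v x.1 * α v x.2)) ^ 2 ≤ 1 := by
  have hσ := P.σ_pos
  rw [Fintype.sum_prod_type]
  have e : ∀ i j, (2 * P.σ / (P.tau i ℓ * P.tau j ℓ) * (α v i * α v j)) ^ 2
      = (2 * P.σ) ^ 2 * (α v i ^ 2 / P.tau i ℓ ^ 2) * (α v j ^ 2 / P.tau j ℓ ^ 2) := by
    intro i j
    have := P.tau_pos i ℓ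
    have := P.tau_pos j ℓ
    field_simp
  simp only [e]
  have e2 : ∑ i, ∑ j, (2 * P.σ) ^ 2 * (α v i ^ 2 / P.tau i ℓ ^ 2) * (α v j ^ 2 / P.tau j ℓ ^ 2)
      = (2 * P.σ) ^ 2 * (∑ i, α v i ^ 2 / P.tau i ℓ ^ 2) * (∑ j, α v j ^ 2 / P.tau j ℓ ^ 2) := by
    rw [mul_assoc, Finset.sum_mul_sum, Finset.mul_sum]
    refine Finset.sum_congr rfl fun i _ => ?_
    rw [Finset.mul_sum]
    refine Finset.sum_congr rfl fun j _ => ?_
    ring
  rw [e2]
  have h4 : ∑ i, α v i ^ 2 / P.tau i ℓ ^ 2 ≤ 1 / (2 * P.σ) := by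
    calc ∑ i, α v i ^ 2 / P.tau i ℓ ^ 2 ≤ ∑ i, α v i ^ 2 / (2 * P.σ) := by
          refine Finset.sum_le_sum fun i _ => ?_
          exact div_le_div_of_nonneg_left (sq_nonneg _) (by positivity) (P.two_σ_le_tau_sq i ℓ)
      _ = (∑ i, α v i ^ 2) / (2 * P.σ) := by rw [Finset.sum_div]
      _ ≤ _ := div_le_div_of_nonneg_right (hα v) (by positivity)
  have h5 : 0 ≤ ∑ i, α v i ^ 2 / P.tau i ℓ ^ 2 :=
    Finset.sum_nonneg fun i _ => by positivity
  have h6 : (2 * P.σ) * ∑ i, α v i ^ 2 / P.tau i ℓ ^ 2 ≤ 1 := by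
    rw [le_div_iff₀ (by positivity)] at h4
    linarith
  have h7 : 0 ≤ (2 * P.σ) * ∑ i, α v i ^ 2 / P.tau i ℓ ^ 2 := by positivity
  nlinarith

lemma Par.rowN_norm (P : Par d) (hα : ∀ v, ∑ i, α v i ^ 2 ≤ 1) (ℓ : ℕ) (v : ι) :
    ∑ e, P.rowN α ℓ v e ^ 2 ≤ 1 := by
  simp only [Fintype.sum_sum_type, Fintype.sum_bool, Par.rowN, div_pow]
  have h1 := P.rowN_first α hα ℓ v
  have h2 := P.rowN_second α hα ℓ v
  have h3 : P.cl α (ℓ + 1) v ^ 2 ≤ 1 := by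
    have := P.cl_nonneg α (ℓ + 1) v
    have := P.cl_le_one α (ℓ + 1) v
    nlinarith
  rw [← Finset.sum_div, ← Finset.sum_div]
  have hnum : (0 : ℝ) < 2.3 ^ 2 := by norm_num
  have : (∑ i, (if P.lam i ℓ < P.e then √(P.Wt i ℓ) * (if P.uu α ℓ v ≤ 1 then α v i else 0)
        else α v i) ^ 2) / 2.3 ^ 2
      + ((∑ x : Fin d × Fin d, (2 * P.σ / (P.tau x.1 ℓ * P.tau x.2 ℓ) * (α v x.1 * α v x.2)) ^ 2) / 2.3 ^ 2
        + (P.cl α (ℓ + 1) v ^ 2 / 2.3 ^ 2 + 1 ^ 2 / 2.3 ^ 2))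
      = ((∑ i, (if P.lam i ℓ < P.e then √(P.Wt i ℓ) * (if P.uu α ℓ v ≤ 1 then α v i else 0)
        else α v i) ^ 2)
        + (∑ x : Fin d × Fin d, (2 * P.σ / (P.tau x.1 ℓ * P.tau x.2 ℓ) * (α v x.1 * α v x.2)) ^ 2)
        + P.cl α (ℓ + 1) v ^ 2 + 1) / 2.3 ^ 2 := by ring
  rw [this, div_le_one hnum]
  have h5 : (2.3 : ℝ) ^ 2 = 5.29 := by norm_num
  rw [h5]
  linarith

/-- The tolerance of a hard row. -/
lemma hard_tol {A Φη κ t' n σ : ℝ} (hA1 : 1 ≤ Real.log A)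
    (hA : 6.6 * √(Real.log A) ≤ σ) (ht' : t' = √(Real.log A) / √2)
    (hκ : 0 < κ) (hκ2 : Φη / κ = A ^ 2)
    (h : κ * ch t' n ≤ Φη) : |n| * 2.3 ≤ σ := by
  have hs1 : 1 ≤ √(Real.log A) := by
    rw [Real.one_le_sqrt]
    exact hA1
  obtain ⟨s, hs⟩ : ∃ s, s = √(Real.log A) := ⟨_, rfl⟩
  rw [← hs] at hs1 hA ht'
  have hs2 : s ^ 2 = Real.log A := by
    rw [hs, Real.sq_sqrt (by linarith)]
  have hsq : 0 < √2 := by positivity
  have ht0 : 0 < t' := by rw [ht']; positivity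
  have h1 : ch t' n ≤ A ^ 2 := by
    rw [← hκ2, le_div_iff₀ hκ]
    linarith
  have h2 := exp_abs_le_ch ht0.le n
  have h3 : Real.exp (t' * |n|) ≤ A ^ 2 := h2.trans h1
  have h4 : t' * |n| ≤ 2 * Real.log A := by
    have := Real.log_le_log (Real.exp_pos _) h3
    rwa [Real.log_exp, Real.log_pow, Nat.cast_ofNat] at this
  rw [← hs2, ht'] at h4
  have h5 : s * |n| ≤ s * (2 * s * √2) := by
    have : s / √2 * |n| * √2 = s * |n| := by field_simp
    rw [← this]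
    have h6 : s / √2 * |n| * √2 ≤ 2 * s ^ 2 * √2 :=
      mul_le_mul_of_nonneg_right h4 hsq.le
    nlinarith
  have h7 : |n| ≤ 2 * s * √2 := le_of_mul_le_mul_left h5 (by linarith)
  have h8 : √2 ≤ 1.4143 := by
    rw [Real.sqrt_le_left (by norm_num)]
    norm_num
  have h9 : 0 ≤ s := by linarith
  nlinarith [mul_le_mul_of_nonneg_left h8 h9]

include Q in
/-- The potential bound is positive. -/
lemma Ext.Phi_nonneg : 0 ≤ Q.Phi := by
  have hd := P.d_pos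
  unfold Ext.Phi Par.Phi0 Par.kc0
  have := ch_pos Q.t P.σ
  positivity

include Q in
lemma Ext.Aa_pos : 0 < P.Aa0 Q.t Q.η := by
  have h1 := Q.Phi_nonneg
  have h2 := Q.hη
  unfold Par.Aa0 Rows
  have h3 : 0 ≤ P.Phi0 Q.t Q.η := h1
  positivity

/-- The weights of the rows. -/
noncomputable def rW (Z : Fin d → Prop) [DecidablePred Z] (ω : Fin d → ℝ) (κ : ℝ) : Jr d → ℝ
  | Sum.inl i => if Z i then ω i else κ
  | Sum.inr _ => κ

/-- The scales of the rows. -/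
noncomputable def rT (Z : Fin d → Prop) [DecidablePred Z] (t t' : ℝ) : Jr d → ℝ
  | Sum.inl i => if Z i then t * 2.3 else t'
  | Sum.inr _ => t'

/-- The starts of the rows. -/
noncomputable def rX (Z : Fin d → Prop) [DecidablePred Z] (x : Fin d → ℝ) : Jr d → ℝ
  | Sum.inl i => if Z i then x i / 2.3 else 0
  | Sum.inr _ => 0

lemma ch_zero_right (s : ℝ) : ch s 0 = 2 := by
  simp only [ch, mul_zero, neg_zero, Real.exp_zero]
  norm_num

lemma ch_scale (t w : ℝ) : ch (t * 2.3) (w / 2.3) = ch t w := by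
  have e : t * 2.3 * (w / 2.3) = t * w := by field_simp
  simp only [ch, e]

lemma rW_nonneg (Z : Fin d → Prop) [DecidablePred Z] {ω : Fin d → ℝ} (hω : ∀ i, 1 ≤ ω i) {κ : ℝ}
    (hκ : 0 < κ) (e : Jr d) : 0 ≤ rW Z ω κ e := by
  rcases e with i | e
  · by_cases h : Z i
    · simp only [rW, h, if_true]
      linarith [hω i]
    · simp only [rW, h, if_false]
      exact hκ.le
  · exact hκ.le

lemma soft_rhs_term (Z : Fin d → Prop) [DecidablePred Z] (ω x : Fin d → ℝ) {t t' κ A : ℝ}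
    (hexp : Real.exp (2 * t' ^ 2) = A) (hH : 0 ≤ κ * (2 * A)) (i : Fin d) :
    rW Z ω κ (Sum.inl i) * ch (rT Z t t' (Sum.inl i)) (rX Z x (Sum.inl i))
        * Real.exp (2 * rT Z t t' (Sum.inl i) ^ 2)
      ≤ (if Z i then ω i * ch t (x i) * Real.exp (10.58 * t ^ 2) else 0) + κ * (2 * A) := by
  by_cases h : Z i
  · simp only [rW, rT, rX, h, if_true]
    rw [ch_scale]
    have e2 : 2 * (t * 2.3) ^ 2 = 10.58 * t ^ 2 := by ring
    rw [e2]
    linarith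
  · simp only [rW, rT, rX, h, if_false, ch_zero_right, hexp]
    linarith

lemma hard_rhs_term (Z : Fin d → Prop) [DecidablePred Z] (ω x : Fin d → ℝ) {t t' κ A : ℝ}
    (hexp : Real.exp (2 * t' ^ 2) = A) (e : (Fin d × Fin d) ⊕ Bool) :
    rW Z ω κ (Sum.inr e) * ch (rT Z t t' (Sum.inr e)) (rX Z x (Sum.inr e))
        * Real.exp (2 * rT Z t t' (Sum.inr e) ^ 2) = κ * (2 * A) := by
  simp only [rW, rT, rX, ch_zero_right, hexp]
  ring

lemma rhs_total (Z : Fin d → Prop) [DecidablePred Z] (ω x : Fin d → ℝ) {t t' κ A : ℝ}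
    (hexp : Real.exp (2 * t' ^ 2) = A) (hH : 0 ≤ κ * (2 * A)) :
    ∑ e, rW Z ω κ e * ch (rT Z t t' e) (rX Z x e) * Real.exp (2 * rT Z t t' e ^ 2)
      ≤ (∑ i, if Z i then ω i * ch t (x i) else 0) * Real.exp (10.58 * t ^ 2)
        + Rows d * (κ * (2 * A)) := by
  obtain ⟨H, hHd⟩ : ∃ H, H = κ * (2 * A) := ⟨_, rfl⟩
  rw [← hHd] at hH ⊢
  rw [Fintype.sum_sum_type]
  have h1 : ∑ i, rW Z ω κ (Sum.inl i) * ch (rT Z t t' (Sum.inl i)) (rX Z x (Sum.inl i))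
        * Real.exp (2 * rT Z t t' (Sum.inl i) ^ 2)
      ≤ (∑ i, if Z i then ω i * ch t (x i) else 0) * Real.exp (10.58 * t ^ 2) + (d : ℝ) * H := by
    calc _ ≤ ∑ i : Fin d, ((if Z i then ω i * ch t (x i) * Real.exp (10.58 * t ^ 2) else 0) + H) := by
          refine Finset.sum_le_sum fun i _ => ?_
          rw [hHd]
          exact soft_rhs_term Z ω x hexp (hHd ▸ hH) i
      _ = _ := by
          rw [Finset.sum_add_distrib, Finset.sum_mul]
          congr 1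
          · refine Finset.sum_congr rfl fun i _ => ?_
            split_ifs <;> simp
          · simp
  have h2 : ∑ e : (Fin d × Fin d) ⊕ Bool, rW Z ω κ (Sum.inr e) * ch (rT Z t t' (Sum.inr e)) (rX Z x (Sum.inr e))
        * Real.exp (2 * rT Z t t' (Sum.inr e) ^ 2) = ((d : ℝ) ^ 2 + 2) * H := by
    have e : ∀ e : (Fin d × Fin d) ⊕ Bool, rW Z ω κ (Sum.inr e) * ch (rT Z t t' (Sum.inr e)) (rX Z x (Sum.inr e))
        * Real.exp (2 * rT Z t t' (Sum.inr e) ^ 2) = H := fun e => by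
      rw [hHd]
      exact hard_rhs_term Z ω x hexp e
    simp only [e]
    simp only [Finset.sum_const, Finset.card_univ, Fintype.card_sum, Fintype.card_prod,
      Fintype.card_fin, Fintype.card_bool, nsmul_eq_mul]
    push_cast
    ring
  rw [h2]
  have h3 : (d : ℝ) * H + ((d : ℝ) ^ 2 + 2) * H ≤ Rows d * H := by
    refine le_of_sub_nonneg ?_
    have : Rows d * H - ((d : ℝ) * H + ((d : ℝ) ^ 2 + 2) * H) = (d : ℝ) * H := by
      rw [Rows]
      ring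
    rw [this]
    positivity
  linarith

/-- The soft sum bound from the total bound. -/
lemma soft_sum_le (Z : Fin d → Prop) [DecidablePred Z] {ω : Fin d → ℝ} (hω : ∀ i, 1 ≤ ω i)
    (x : Fin d → ℝ) {t η T E0 : ℝ} (hE01 : 1 ≤ E0) (hη : 0 < η)
    (hT : T ≤ (∑ i, if Z i then ω i * ch t (x i) else 0) * E0 + 2 * η)
    (f : Fin d → ℝ) (hf : (∑ i, if Z i then f i else 0) ≤ T) :
    (∑ i, if Z i then f i else 0)
      ≤ (∑ i, if Z i then ω i * ch t (x i) else 0) * E0 * Real.exp η := by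
  have hexpη : 1 + η ≤ Real.exp η := by linarith [Real.add_one_le_exp η]
  obtain ⟨S0, hS0⟩ : ∃ S0, S0 = ∑ i, if Z i then ω i * ch t (x i) else 0 := ⟨_, rfl⟩
  rw [← hS0] at hT ⊢
  by_cases hex : ∃ i, Z i
  · obtain ⟨i0, hi0⟩ := hex
    have hS02 : 2 ≤ S0 := by
      rw [hS0]
      have h1 : (if Z i0 then ω i0 * ch t (x i0) else 0)
          ≤ ∑ i, (if Z i then ω i * ch t (x i) else 0) := by
        refine Finset.single_le_sum (f := fun i => if Z i then ω i * ch t (x i) else 0) ?_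
          (Finset.mem_univ i0)
        intro i _
        by_cases hi : Z i
        · simp only [hi, if_true]
          have := ch_pos t (x i)
          have := hω i
          positivity
        · simp only [hi, if_false]
          exact le_rfl
      rw [if_pos hi0] at h1
      have h2 := two_le_ch t (x i0)
      have h3 := hω i0
      nlinarith
    have h1 : 2 ≤ S0 * E0 := by nlinarith
    have h2 : S0 * E0 * (1 + η) ≤ S0 * E0 * Real.exp η :=
      mul_le_mul_of_nonneg_left hexpη (by linarith)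
    nlinarith
  · push Not at hex
    have h0 : S0 = 0 := by
      rw [hS0]
      exact Finset.sum_eq_zero fun i _ => if_neg (hex i)
    rw [h0]
    have h1 : (∑ i, if Z i then f i else 0) = 0 :=
      Finset.sum_eq_zero fun i _ => if_neg (hex i)
    rw [h1]
    simp

/-- Soft and hard rows from the bound of weighted rounding. -/
lemma soft_hard (Z : Fin d → Prop) [DecidablePred Z] {ω x : Fin d → ℝ} (hω : ∀ i, 1 ≤ ω i)
    {t t' κ A σ η Φ : ℝ} (n : Jr d → ℝ) (ht : 0 < t) (hη : 0 < η) (hκ : 0 < κ) (hA0 : 0 < A)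
    (hA1 : 1 ≤ Real.log A) (hA : 6.6 * √(Real.log A) ≤ σ) (ht' : t' = √(Real.log A) / √2)
    (hκ2 : (Φ + 2 * η) / κ = A ^ 2) (hκ3 : Rows d * (κ * (2 * A)) = 2 * η)
    (hS : (∑ i, if Z i then ω i * ch t (x i) else 0) * Real.exp (10.58 * t ^ 2) * Real.exp η ≤ Φ)
    (hmain : ∑ e, rW Z ω κ e * ch (rT Z t t' e) (rX Z x e + n e)
      ≤ ∑ e, rW Z ω κ e * ch (rT Z t t' e) (rX Z x e) * Real.exp (2 * rT Z t t' e ^ 2)) :
    ((∑ i, if Z i then ω i * ch t (x i + n (Sum.inl i) * 2.3) else 0)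
        ≤ (∑ i, if Z i then ω i * ch t (x i) else 0) * Real.exp (10.58 * t ^ 2) * Real.exp η) ∧
      (∀ i, ¬ Z i → |n (Sum.inl i)| * 2.3 ≤ σ) ∧ (∀ e, |n (Sum.inr e)| * 2.3 ≤ σ) := by
  have ht'2 : 2 * t' ^ 2 = Real.log A := by
    rw [ht', div_pow, Real.sq_sqrt (by linarith), Real.sq_sqrt (by norm_num)]
    ring
  have hexp : Real.exp (2 * t' ^ 2) = A := by rw [ht'2, Real.exp_log hA0]
  have hH0 : 0 ≤ κ * (2 * A) := by positivity
  have hrhs := rhs_total (t := t) Z ω x hexp hH0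
  rw [hκ3] at hrhs
  have hE01 : 1 ≤ Real.exp (10.58 * t ^ 2) := Real.one_le_exp (by positivity)
  have hT := hmain.trans hrhs
  have hterm_nn : ∀ e, 0 ≤ rW Z ω κ e * ch (rT Z t t' e) (rX Z x e + n e) := fun e =>
    mul_nonneg (rW_nonneg Z hω hκ e) (ch_pos _ _).le
  have hexpη : 1 ≤ Real.exp η := Real.one_le_exp hη.le
  have hS0nn : 0 ≤ ∑ i, if Z i then ω i * ch t (x i) else 0 := by
    refine Finset.sum_nonneg fun i _ => ?_
    by_cases hi : Z i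
    · simp only [hi, if_true]
      have := ch_pos t (x i)
      have := hω i
      positivity
    · simp only [hi, if_false]
      exact le_rfl
  have hS0E0 : (∑ i, if Z i then ω i * ch t (x i) else 0) * Real.exp (10.58 * t ^ 2) ≤ Φ := by
    refine le_trans ?_ hS
    exact le_mul_of_one_le_right (by positivity) hexpη
  have hle : ∀ e, rW Z ω κ e * ch (rT Z t t' e) (rX Z x e + n e) ≤ Φ + 2 * η := by
    intro e
    have h1 : rW Z ω κ e * ch (rT Z t t' e) (rX Z x e + n e)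
        ≤ ∑ e, rW Z ω κ e * ch (rT Z t t' e) (rX Z x e + n e) :=
      Finset.single_le_sum (f := fun e => rW Z ω κ e * ch (rT Z t t' e) (rX Z x e + n e))
        (fun e _ => hterm_nn e) (Finset.mem_univ e)
    linarith
  have hhard : ∀ e, rW Z ω κ e = κ → rT Z t t' e = t' → rX Z x e = 0 → |n e| * 2.3 ≤ σ := by
    intro e h1 h2 h3
    have h4 := hle e
    rw [h1, h2, h3, zero_add] at h4
    exact hard_tol hA1 hA ht' hκ hκ2 h4
  refine ⟨?_, ?_, fun e => hhard (Sum.inr e) rfl rfl rfl⟩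
  · refine soft_sum_le Z hω x hE01 hη hT _ ?_
    rw [Fintype.sum_sum_type]
    have h2 : 0 ≤ ∑ e : (Fin d × Fin d) ⊕ Bool,
        rW Z ω κ (Sum.inr e) * ch (rT Z t t' (Sum.inr e)) (rX Z x (Sum.inr e) + n (Sum.inr e)) :=
      Finset.sum_nonneg fun e _ => hterm_nn (Sum.inr e)
    have h3 : (∑ i, if Z i then ω i * ch t (x i + n (Sum.inl i) * 2.3) else 0)
        ≤ ∑ i, rW Z ω κ (Sum.inl i) * ch (rT Z t t' (Sum.inl i)) (rX Z x (Sum.inl i) + n (Sum.inl i)) := by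
      refine Finset.sum_le_sum fun i _ => ?_
      by_cases h : Z i
      · have e1 : x i / 2.3 + n (Sum.inl i) = (x i + n (Sum.inl i) * 2.3) / 2.3 := by
          field_simp
        simp only [rW, rT, rX, h, if_true]
        rw [e1, ch_scale]
      · simp only [h, if_false]
        exact hterm_nn (Sum.inl i)
    linarith
  · intro i h
    refine hhard (Sum.inl i) ?_ ?_ ?_
    · simp only [rW, h, if_false]
    · simp only [rT, h, if_false]
    · simp only [rX, h, if_false]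

lemma Par.row_notail (P : Par d) {ℓ : ℕ} {i : Fin d} (h : ¬ P.lam i ℓ < P.e) (E : ι → ℝ) (B : Finset ι) :
    (∑ v ∈ B, E v * P.rowN α ℓ v (Sum.inl i)) * 2.3 = ∑ v ∈ B, E v * α v i := by
  rw [Finset.sum_mul]
  refine Finset.sum_congr rfl fun v _ => ?_
  simp only [Par.rowN, h, if_false]
  field_simp

lemma Par.row_tail (P : Par d) {ℓ : ℕ} {i : Fin d} (h : P.lam i ℓ < P.e) (E : ι → ℝ) (B : Finset ι) :
    (∑ v ∈ B, E v * P.rowN α ℓ v (Sum.inl i)) * 2.3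
      = √(P.Wt i ℓ) * ∑ v ∈ B, E v * (if P.uu α ℓ v ≤ 1 then α v i else 0) := by
  rw [Finset.sum_mul, Finset.mul_sum]
  refine Finset.sum_congr rfl fun v _ => ?_
  simp only [Par.rowN, h, if_true]
  field_simp

lemma Par.row_mom (P : Par d) {ℓ : ℕ} (i j : Fin d) (E : ι → ℝ) (B : Finset ι) :
    (∑ v ∈ B, E v * P.rowN α ℓ v (Sum.inr (Sum.inl (i, j)))) * 2.3
      = 2 * P.σ / (P.tau i ℓ * P.tau j ℓ) * ∑ v ∈ B, E v * (α v i * α v j) := by
  rw [Finset.sum_mul, Finset.mul_sum]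
  refine Finset.sum_congr rfl fun v _ => ?_
  simp only [Par.rowN]
  field_simp

lemma Par.row_size (P : Par d) {ℓ : ℕ} (E : ι → ℝ) (B : Finset ι) :
    (∑ v ∈ B, E v * P.rowN α ℓ v (Sum.inr (Sum.inr false))) * 2.3 = ∑ v ∈ B, E v := by
  rw [Finset.sum_mul]
  refine Finset.sum_congr rfl fun v _ => ?_
  simp only [Par.rowN]
  field_simp

lemma Par.row_count (P : Par d) {ℓ : ℕ} (E : ι → ℝ) (B : Finset ι) :
    (∑ v ∈ B, E v * P.rowN α ℓ v (Sum.inr (Sum.inr true))) * 2.3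
      = ∑ v ∈ B, E v * P.cl α (ℓ + 1) v := by
  rw [Finset.sum_mul]
  refine Finset.sum_congr rfl fun v _ => ?_
  simp only [Par.rowN]
  field_simp

lemma abs_mul_twoThree_le {n σ : ℝ} (h : |n| * 2.3 ≤ σ) : |n * 2.3| ≤ σ := by
  rw [abs_mul, abs_of_pos (by norm_num : (0 : ℝ) < 2.3)]
  exact h

include Q in
/-- The tail row. -/
lemma Ext.tail_out {i : Fin d} {ℓ : ℕ} {S : ℝ} (h : |√(P.Wt i ℓ) * S| ≤ P.σ) : |S| ≤ P.σ * P.ss i ℓ := by
  rw [abs_mul, abs_of_nonneg (Real.sqrt_nonneg _)] at h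
  have hWs := Q.Wt_ss i ℓ
  have hss : 0 ≤ P.ss i ℓ := Real.sqrt_nonneg _
  have hW0 := P.Wt_nonneg i ℓ
  have e3 : √(P.Wt i ℓ) * P.ss i ℓ = 1 := by
    have h4 : (√(P.Wt i ℓ) * P.ss i ℓ) ^ 2 = 1 := by
      rw [mul_pow, Real.sq_sqrt hW0, hWs]
    have h5 : 0 ≤ √(P.Wt i ℓ) * P.ss i ℓ := mul_nonneg (Real.sqrt_nonneg _) hss
    nlinarith
  calc |S| = (√(P.Wt i ℓ) * |S|) * P.ss i ℓ := by
        rw [mul_comm (√(P.Wt i ℓ)), mul_assoc, e3, mul_one]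
    _ ≤ P.σ * P.ss i ℓ := mul_le_mul_of_nonneg_right h hss

/-- The moment row. -/
lemma mom_out {σ a S : ℝ} (hσ : 0 < σ) (ha : 0 < a) (h : |2 * σ / a * S| ≤ σ) : |S| ≤ a / 2 := by
  rw [abs_mul, abs_of_pos (by positivity : 0 < 2 * σ / a)] at h
  have h4 : 2 * σ * |S| ≤ σ * a := by
    have := mul_le_mul_of_nonneg_right h ha.le
    have e2 : 2 * σ / a * |S| * a = 2 * σ * |S| := by field_simp
    linarith
  have : σ * (2 * |S|) ≤ σ * a := by linarith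
  have := le_of_mul_le_mul_left this hσ
  linarith

/-- The constants of the hard rows. -/
lemma hard_constants {d : ℕ} {Φ η A κ : ℝ} (hd : (0 : ℝ) < d) (hΦ : 0 ≤ Φ) (hη : 0 < η)
    (hAeq : A = (Φ + 2 * η) * Rows d / η) (hκd : κ = η / (Rows d * A)) :
    0 < A ∧ 0 < κ ∧ (Φ + 2 * η) / κ = A ^ 2 ∧ Rows d * (κ * (2 * A)) = 2 * η := by
  have hR0 : 0 < Rows d := by rw [Rows]; positivity
  have hA0 : 0 < A := by rw [hAeq]; positivity
  have hκ : 0 < κ := by rw [hκd]; positivity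
  refine ⟨hA0, hκ, ?_, ?_⟩
  · rw [hκd, hAeq]
    field_simp
  · rw [hκd]
    field_simp

include Q in
/-- The rounding: abstract row sums. -/
lemma Ext.round_rows (hα : ∀ v, ∑ i, α v i ^ 2 ≤ 1) (B : Finset ι) (ℓ : ℕ) (y : ι → ℝ)
    (hy : ∀ v ∈ B, 0 ≤ y v ∧ y v ≤ 1) (ω x : Fin d → ℝ) (hω : ∀ i, 1 ≤ ω i)
    (Z : Fin d → Prop) [DecidablePred Z]
    (hS : (∑ i, if Z i then ω i * ch Q.t (x i) else 0) * Real.exp (10.58 * Q.t ^ 2) * Real.exp Q.η ≤ Q.Phi) :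
    ∃ L ⊆ B,
      ((∑ i, if Z i then ω i * ch Q.t (x i
          + (∑ v ∈ B, ((if v ∈ L then 1 else 0) - y v) * P.rowN α ℓ v (Sum.inl i)) * 2.3) else 0)
        ≤ (∑ i, if Z i then ω i * ch Q.t (x i) else 0) * Real.exp (10.58 * Q.t ^ 2) * Real.exp Q.η) ∧
      (∀ i, ¬ Z i → |(∑ v ∈ B, ((if v ∈ L then 1 else 0) - y v) * P.rowN α ℓ v (Sum.inl i)) * 2.3| ≤ P.σ) ∧
      (∀ e, |(∑ v ∈ B, ((if v ∈ L then 1 else 0) - y v) * P.rowN α ℓ v (Sum.inr e)) * 2.3| ≤ P.σ) := by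
  have hd := P.d_pos
  have hΦ := Q.Phi_nonneg
  have hA1 := Q.hA1
  have hA2 := Q.hA
  have hAeq : P.Aa0 Q.t Q.η = (Q.Phi + 2 * Q.η) * Rows d / Q.η := rfl
  obtain ⟨A, hAdef⟩ : ∃ A, A = P.Aa0 Q.t Q.η := ⟨_, rfl⟩
  rw [← hAdef] at hA1 hA2 hAeq
  obtain ⟨κ, hκd⟩ : ∃ κ, κ = Q.η / (Rows d * A) := ⟨_, rfl⟩
  obtain ⟨hA0, hκ, hκ2, hκ3⟩ := hard_constants hd hΦ Q.hη hAeq hκd
  obtain ⟨t', ht'⟩ : ∃ t', t' = √(Real.log A) / √2 := ⟨_, rfl⟩
  obtain ⟨L, hL, hmain⟩ := krw_gen B (P.rowN α ℓ) (P.rowN_norm α hα ℓ) y hy (rT Z Q.t t') (rW Z ω κ)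
    (rX Z x) (rW_nonneg Z hω hκ)
  refine ⟨L, hL, ?_⟩
  obtain ⟨h1, h2, h3⟩ := soft_hard Z hω (fun e => ∑ v ∈ B, ((if v ∈ L then 1 else 0) - y v) * P.rowN α ℓ v e)
    Q.ht Q.hη hκ hA0 hA1 hA2 ht' hκ2 hκ3 hS hmain
  refine ⟨h1, fun i hi => abs_mul_twoThree_le (h2 i hi), fun e => abs_mul_twoThree_le (h3 e)⟩

/-- Outcome of the rounding at a node. `ω` are the weights and `x` the starts of the soft rows. -/
theorem Ext.round (hα : ∀ v, ∑ i, α v i ^ 2 ≤ 1) (B : Finset ι) (ℓ : ℕ) (y : ι → ℝ)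
    (hy : ∀ v ∈ B, 0 ≤ y v ∧ y v ≤ 1) (ω x : Fin d → ℝ) (hω : ∀ i, 1 ≤ ω i)
    (hS : ∑ i, (if P.e ≤ P.lam i ℓ ∧ P.lam i ℓ < P.γ then ω i * ch Q.t (x i) * Real.exp Q.ξ else 0) ≤ Q.Phi) :
    ∃ L ⊆ B,
      (∑ i, (if P.e ≤ P.lam i ℓ ∧ P.lam i ℓ < P.γ then
          ω i * ch Q.t (x i + ∑ v ∈ B, ((if v ∈ L then 1 else 0) - y v) * α v i) else 0)
        ≤ ∑ i, (if P.e ≤ P.lam i ℓ ∧ P.lam i ℓ < P.γ then ω i * ch Q.t (x i) * Real.exp Q.ξ else 0)) ∧
      (∀ i, P.γ ≤ P.lam i ℓ → |∑ v ∈ B, ((if v ∈ L then 1 else 0) - y v) * α v i| ≤ P.σ) ∧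
      (∀ i, P.lam i ℓ < P.e →
        |∑ v ∈ B, ((if v ∈ L then 1 else 0) - y v) * (if P.uu α ℓ v ≤ 1 then α v i else 0)| ≤ P.σ * P.ss i ℓ) ∧
      (∀ i j, |∑ v ∈ B, ((if v ∈ L then 1 else 0) - y v) * (α v i * α v j)| ≤ P.tau i ℓ * P.tau j ℓ / 2) ∧
      |∑ v ∈ B, ((if v ∈ L then (1 : ℝ) else 0) - y v)| ≤ P.σ ∧
      |∑ v ∈ B, ((if v ∈ L then 1 else 0) - y v) * P.cl α (ℓ + 1) v| ≤ P.σ := by
  have hσ := P.σ_pos
  have hξ : ∀ a : ℝ, a * Real.exp Q.ξ = a * Real.exp (10.58 * Q.t ^ 2) * Real.exp Q.η := by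
    intro a
    rw [mul_assoc, ← Real.exp_add]
    rfl
  have hSeq : ∑ i, (if P.e ≤ P.lam i ℓ ∧ P.lam i ℓ < P.γ then ω i * ch Q.t (x i) * Real.exp Q.ξ else 0)
      = (∑ i, if P.e ≤ P.lam i ℓ ∧ P.lam i ℓ < P.γ then ω i * ch Q.t (x i) else 0)
        * Real.exp (10.58 * Q.t ^ 2) * Real.exp Q.η := by
    rw [Finset.sum_mul, Finset.sum_mul]
    refine Finset.sum_congr rfl fun i _ => ?_
    by_cases h : P.e ≤ P.lam i ℓ ∧ P.lam i ℓ < P.γ
    · rw [if_pos h, if_pos h, hξ]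
    · rw [if_neg h, if_neg h]
      ring
  rw [hSeq] at hS
  obtain ⟨L, hL, h1, h2, h3⟩ := Q.round_rows α hα B ℓ y hy ω x hω
    (fun i => P.e ≤ P.lam i ℓ ∧ P.lam i ℓ < P.γ) hS
  refine ⟨L, hL, ?_, ?_, ?_, ?_, ?_, ?_⟩
  · rw [hSeq]
    refine le_trans (le_of_eq ?_) h1
    refine Finset.sum_congr rfl fun i _ => ?_
    by_cases h : P.e ≤ P.lam i ℓ ∧ P.lam i ℓ < P.γ
    · simp only [h, and_self, if_true]
      rw [P.row_notail α (not_lt.mpr h.1)]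
    · simp only [h, if_false]
  · intro i hi
    have hZ : ¬ (P.e ≤ P.lam i ℓ ∧ P.lam i ℓ < P.γ) := fun h => absurd h.2 (not_lt.mpr hi)
    have hne : ¬ P.lam i ℓ < P.e := by
      have := P.two_e_le_γ
      have := P.e_pos
      linarith
    have := h2 i hZ
    rwa [P.row_notail α hne] at this
  · intro i hi
    have hZ : ¬ (P.e ≤ P.lam i ℓ ∧ P.lam i ℓ < P.γ) := fun h => absurd hi (not_lt.mpr h.1)
    have := h2 i hZ
    rw [P.row_tail α hi] at this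
    exact Q.tail_out this
  · intro i j
    have := h3 (Sum.inl (i, j))
    rw [P.row_mom α] at this
    exact mom_out hσ (mul_pos (P.tau_pos _ _) (P.tau_pos _ _)) this
  · have := h3 (Sum.inr false)
    rw [P.row_size α] at this
    exact this
  · have := h3 (Sum.inr true)
    rw [P.row_count α] at this
    exact this

end Vale.Agent.P262H
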